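import Mathlib

/-!
# BVZ: integer valued functions of bounded variation in the plane

If `N ∈ {0} ∪ [1, ∞)` has bounded support and `|∫ N ∂ᵥ φ| ≤ K` for all test functions `φ` with
`|φ| ≤ 1`, then `∫ N ≤ C K²` (Sobolev inequality and `N ≤ N²`).
-/

open MeasureTheory Set Filter Topology Metric
open scoped ContDiff Convolution ENNReal

noncomputable section

namespace Vale.Agent.P247.H264

/-- the variation of a smooth compactly supported function from the dual formulation -/
theorem integral_abs_fderiv_le {g : ℂ → ℝ} (hg : ContDiff ℝ ∞ g) (hs : HasCompactSupport g)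
    (v : ℂ) {K : ℝ} (h : ∀ φ : ℂ → ℝ, ContDiff ℝ ∞ φ → HasCompactSupport φ → (∀ z, |φ z| ≤ 1) →
      |∫ z, g z * fderiv ℝ φ z v| ≤ K) :
    ∫ z, |fderiv ℝ g z v| ≤ K := by
  have hd : ContDiff ℝ ∞ (fun z => fderiv ℝ g z v) :=
    (hg.fderiv_right (m := ∞) (by simp)).clm_apply contDiff_const
  have hds : HasCompactSupport (fun z => fderiv ℝ g z v) := hs.fderiv_apply (𝕜 := ℝ) v
  have hdi : Integrable (fun z => fderiv ℝ g z v) := hd.continuous.integrable_of_hasCompactSupport hds
  obtain ⟨S, hS, hSs⟩ : ∃ S : Set ℂ, IsCompact S ∧ ∀ z, z ∉ S → fderiv ℝ g z v = 0 :=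
    ⟨_, hds, fun z hz => image_eq_zero_of_notMem_tsupport (f := fun z => fderiv ℝ g z v) hz⟩
  have key : ∀ δ : ℝ, 0 < δ → ∫ z, |fderiv ℝ g z v| ≤ K + δ * (volume S).toReal := by
    intro δ hδ
    set φ : ℂ → ℝ := fun z => fderiv ℝ g z v / √((fderiv ℝ g z v) ^ 2 + δ ^ 2) with hφ
    have hpos : ∀ z, 0 < √((fderiv ℝ g z v) ^ 2 + δ ^ 2) := fun z => Real.sqrt_pos.2 (by positivity)
    have hφc : ContDiff ℝ ∞ φ := by
      refine hd.div ?_ (fun z => (hpos z).ne')
      refine ContDiff.sqrt ((hd.pow 2).add contDiff_const) (fun z => ?_)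
      positivity
    have hφs : HasCompactSupport φ := by
      refine hds.mono (fun z hz => ?_)
      simp only [Function.mem_support, hφ] at hz ⊢
      intro h0
      exact hz (by rw [h0]; simp)
    have habs : ∀ z, |fderiv ℝ g z v| ≤ √((fderiv ℝ g z v) ^ 2 + δ ^ 2) := fun z => by
      rw [← Real.sqrt_sq_eq_abs]
      exact Real.sqrt_le_sqrt (by nlinarith [sq_nonneg δ])
    have hφ1 : ∀ z, |φ z| ≤ 1 := fun z => by
      simp only [hφ, abs_div, abs_of_pos (hpos z)]
      exact (div_le_one (hpos z)).2 (habs z)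
    have hφd : HasCompactSupport (fun z => fderiv ℝ φ z v) := hφs.fderiv_apply (𝕜 := ℝ) v
    have hφdc : Continuous (fun z => fderiv ℝ φ z v) :=
      ((hφc.fderiv_right (m := ∞) (by simp)).clm_apply contDiff_const).continuous
    have hip : ∫ z, g z * fderiv ℝ φ z v = - ∫ z, fderiv ℝ g z v * φ z := by
      apply integral_mul_fderiv_eq_neg_fderiv_mul_of_integrable
      · exact (hd.continuous.mul hφc.continuous).integrable_of_hasCompactSupport (hφs.mul_left)
      · exact (hg.continuous.mul hφdc).integrable_of_hasCompactSupport (hφd.mul_left)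
      · exact (hg.continuous.mul hφc.continuous).integrable_of_hasCompactSupport (hφs.mul_left)
      · exact fun x _ => hg.differentiable (by simp) x
      · exact fun x _ => hφc.differentiable (by simp) x
    have h1 : ∫ z, fderiv ℝ g z v * φ z ≤ K := by
      have := h φ hφc hφs hφ1
      rw [hip, abs_neg] at this
      exact (le_abs_self _).trans this
    have h2 : ∀ z, |fderiv ℝ g z v| ≤ fderiv ℝ g z v * φ z + δ * S.indicator 1 z := by
      intro z
      by_cases hz : z ∈ S
      · simp only [hz, indicator_of_mem, Pi.one_apply, mul_one, hφ]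
        set x := fderiv ℝ g z v
        have hx := hpos z
        have e1 : x * (x / √(x ^ 2 + δ ^ 2)) = x ^ 2 / √(x ^ 2 + δ ^ 2) := by ring
        rw [e1]
        have h3 : √(x ^ 2 + δ ^ 2) ≤ |x| + δ := by
          rw [Real.sqrt_le_left (by positivity)]
          nlinarith [abs_nonneg x, sq_abs x]
        have h4 : |x| - δ ≤ x ^ 2 / √(x ^ 2 + δ ^ 2) := by
          rw [le_div_iff₀ hx]
          by_cases hc : |x| ≤ δ
          · have : (|x| - δ) * √(x ^ 2 + δ ^ 2) ≤ 0 := mul_nonpos_of_nonpos_of_nonneg (by linarith) hx.le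
            nlinarith [sq_nonneg x]
          · push Not at hc
            have := mul_le_mul_of_nonneg_left h3 (by linarith : 0 ≤ |x| - δ)
            nlinarith [sq_abs x, sq_nonneg δ]
        linarith
      · rw [hSs z hz]
        simp [hz]
    have hi2 : Integrable (fun z => fderiv ℝ g z v * φ z) :=
      (hd.continuous.mul hφc.continuous).integrable_of_hasCompactSupport (hφs.mul_left)
    have hi3 : Integrable (fun z => δ * S.indicator (1 : ℂ → ℝ) z) := by
      apply Integrable.const_mul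
      rw [integrable_indicator_iff hS.measurableSet]
      exact integrableOn_const hS.measure_lt_top.ne
    calc ∫ z, |fderiv ℝ g z v| ≤ ∫ z, (fderiv ℝ g z v * φ z + δ * S.indicator 1 z) :=
          integral_mono hdi.abs (hi2.add hi3) h2
      _ = (∫ z, fderiv ℝ g z v * φ z) + δ * (volume S).toReal := by
          rw [integral_add hi2 hi3, integral_const_mul, integral_indicator_one hS.measurableSet]
          rfl
      _ ≤ K + δ * (volume S).toReal := by linarith
  refine le_of_forall_pos_le_add (fun ε hε => ?_)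
  have hv : 0 ≤ (volume S).toReal := ENNReal.toReal_nonneg
  have := key (ε / ((volume S).toReal + 1)) (by positivity)
  refine this.trans ?_
  have : ε / ((volume S).toReal + 1) * (volume S).toReal ≤ ε := by
    rw [div_mul_eq_mul_div, div_le_iff₀ (by positivity)]
    nlinarith
  linarith

/-- The Sobolev inequality in the plane, dual formulation, for smooth functions. -/
theorem exists_sobolev : ∃ C : ℝ, 0 < C ∧ ∀ (g : ℂ → ℝ) (K : ℝ), ContDiff ℝ ∞ g →
    HasCompactSupport g → (∀ φ : ℂ → ℝ, ContDiff ℝ ∞ φ → HasCompactSupport φ → (∀ z, |φ z| ≤ 1) →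
      ∀ v : ℂ, ‖v‖ ≤ 1 → |∫ z, g z * fderiv ℝ φ z v| ≤ K) →
    ∫ z, g z ^ 2 ≤ C * K ^ 2 := by
  have hp : Real.HolderConjugate (Module.finrank ℝ ℂ : ℝ) 2 := by
    rw [Complex.finrank_real_complex]
    norm_num
    exact Real.HolderConjugate.two_two
  set c := lintegralPowLePowLIntegralFDerivConst (volume : Measure ℂ) 2
  refine ⟨4 * c + 1, by positivity, fun g K hg hs h => ?_⟩
  have hK : 0 ≤ K := (abs_nonneg _).trans (h 0 contDiff_const HasCompactSupport.zero (by simp) 0 (by simp))
  have h1 := integral_abs_fderiv_le hg hs 1 (fun φ a b d => h φ a b d 1 (by simp))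
  have h2 := integral_abs_fderiv_le hg hs Complex.I (fun φ a b d => h φ a b d Complex.I (by simp))
  have hc : ∀ v : ℂ, Integrable (fun z => fderiv ℝ g z v) := fun v =>
    ((hg.fderiv_right (m := ∞) (by simp)).clm_apply contDiff_const).continuous.integrable_of_hasCompactSupport
      (hs.fderiv_apply (𝕜 := ℝ) v)
  have hn : ∀ z, ‖fderiv ℝ g z‖ ≤ |fderiv ℝ g z 1| + |fderiv ℝ g z Complex.I| := by
    intro z
    refine ContinuousLinearMap.opNorm_le_bound _ (by positivity) (fun w => ?_)
    have e1 : fderiv ℝ g z w = w.re * fderiv ℝ g z 1 + w.im * fderiv ℝ g z Complex.I := by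
      have : w = w.re • (1 : ℂ) + w.im • Complex.I := by simp [Complex.re_add_im]
      conv_lhs => rw [this]
      rw [map_add, map_smul, map_smul, smul_eq_mul, smul_eq_mul]
    rw [e1, Real.norm_eq_abs]
    calc |w.re * fderiv ℝ g z 1 + w.im * fderiv ℝ g z Complex.I|
        ≤ |w.re| * |fderiv ℝ g z 1| + |w.im| * |fderiv ℝ g z Complex.I| := by
          refine (abs_add_le _ _).trans ?_
          rw [abs_mul, abs_mul]
      _ ≤ ‖w‖ * |fderiv ℝ g z 1| + ‖w‖ * |fderiv ℝ g z Complex.I| := by
          gcongr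
          · exact Complex.abs_re_le_norm w
          · exact Complex.abs_im_le_norm w
      _ = _ := by ring
  have h3 : ∫ z, ‖fderiv ℝ g z‖ ≤ 2 * K := by
    calc ∫ z, ‖fderiv ℝ g z‖ ≤ ∫ z, (|fderiv ℝ g z 1| + |fderiv ℝ g z Complex.I|) := by
          refine integral_mono_of_nonneg (Eventually.of_forall fun z => norm_nonneg _)
            ((hc 1).abs.add (hc Complex.I).abs) (Eventually.of_forall hn)
      _ = (∫ z, |fderiv ℝ g z 1|) + ∫ z, |fderiv ℝ g z Complex.I| :=
          integral_add (hc 1).abs (hc Complex.I).abs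
      _ ≤ 2 * K := by linarith
  have hfi : Integrable (fun z => fderiv ℝ g z) :=
    (hg.continuous_fderiv (by simp)).integrable_of_hasCompactSupport (hs.fderiv (𝕜 := ℝ))
  have h4 : (∫⁻ z, ‖fderiv ℝ g z‖ₑ) ≤ ENNReal.ofReal (2 * K) := by
    rw [← ofReal_integral_norm_eq_lintegral_enorm hfi]
    exact ENNReal.ofReal_le_ofReal h3
  have h5 := lintegral_pow_le_pow_lintegral_fderiv (volume : Measure ℂ) (hg.of_le (by simp) : ContDiff ℝ 1 g) hs hp
  have hgi : Integrable (fun z => g z ^ 2) :=
    (hg.continuous.pow 2).integrable_of_hasCompactSupport (by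
      refine hs.mono (fun z hz => ?_)
      simp only [Function.mem_support] at hz ⊢
      intro h0; exact hz (by simp [h0]))
  have h6 : ENNReal.ofReal (∫ z, g z ^ 2) = ∫⁻ z, ‖g z‖ₑ ^ (2 : ℝ) := by
    rw [ofReal_integral_eq_lintegral_ofReal hgi (Eventually.of_forall fun z => sq_nonneg _)]
    refine lintegral_congr (fun z => ?_)
    rw [← ofReal_norm, ENNReal.ofReal_rpow_of_nonneg (norm_nonneg _) (by norm_num)]
    congr 1
    rw [Real.norm_eq_abs]
    norm_cast
    rw [sq_abs]
  have h7 : ENNReal.ofReal (∫ z, g z ^ 2) ≤ ENNReal.ofReal (c * (2 * K) ^ 2) := by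
    rw [h6]
    refine h5.trans ?_
    have : (∫⁻ z, ‖fderiv ℝ g z‖ₑ) ^ (2 : ℝ) ≤ ENNReal.ofReal ((2 * K) ^ 2) := by
      have := ENNReal.rpow_le_rpow h4 (by norm_num : (0 : ℝ) ≤ 2)
      refine this.trans ?_
      rw [ENNReal.ofReal_rpow_of_nonneg (by positivity) (by norm_num)]
      norm_cast
    rw [ENNReal.ofReal_mul (by positivity)]
    gcongr
    simp [c]
  have h8 := (ENNReal.ofReal_le_ofReal_iff (by positivity)).1 h7
  nlinarith [sq_nonneg K]

/-- the mollified function inherits the dual bound -/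
theorem dual_bound_convolution (φ : ContDiffBump (0 : ℂ)) {N : ℂ → ℝ} (hN : Integrable N) {K : ℝ}
    (h : ∀ φ : ℂ → ℝ, ContDiff ℝ ∞ φ → HasCompactSupport φ → (∀ z, |φ z| ≤ 1) →
      ∀ v : ℂ, ‖v‖ ≤ 1 → |∫ z, N z * fderiv ℝ φ z v| ≤ K)
    (ψ : ℂ → ℝ) (hψ : ContDiff ℝ ∞ ψ) (hψs : HasCompactSupport ψ) (hψ1 : ∀ z, |ψ z| ≤ 1)
    (v : ℂ) (hv : ‖v‖ ≤ 1) :
    |∫ z, (φ.normed volume ⋆[ContinuousLinearMap.lsmul ℝ ℝ, volume] N) z * fderiv ℝ ψ z v| ≤ K := by
  have hρi : Integrable (φ.normed volume) := φ.integrable_normed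
  have hdc : Continuous (fun z => fderiv ℝ ψ z v) :=
    ((hψ.fderiv_right (m := ∞) (by simp)).clm_apply contDiff_const).continuous
  have hds : HasCompactSupport (fun z => fderiv ℝ ψ z v) := hψs.fderiv_apply (𝕜 := ℝ) v
  obtain ⟨B, hB⟩ := hdc.bounded_above_of_compact_support hds
  have h1 : Integrable (fun p : ℂ × ℂ => φ.normed volume p.2 * N (p.1 - p.2) * fderiv ℝ ψ p.1 v)
      (volume.prod volume) := by
    have := hρi.convolution_integrand (ContinuousLinearMap.lsmul ℝ ℝ) hN
    refine Integrable.mul_bdd (g := fun p : ℂ × ℂ => fderiv ℝ ψ p.1 v) (c := B) this ?_ ?_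
    · exact (hdc.comp continuous_fst).aestronglyMeasurable
    · exact Eventually.of_forall fun p => hB p.1
  have e1 : ∫ z, (φ.normed volume ⋆[ContinuousLinearMap.lsmul ℝ ℝ, volume] N) z * fderiv ℝ ψ z v =
      ∫ y, φ.normed volume y * ∫ z, N z * fderiv ℝ ψ (z + y) v := by
    calc ∫ z, (φ.normed volume ⋆[ContinuousLinearMap.lsmul ℝ ℝ, volume] N) z * fderiv ℝ ψ z v
        = ∫ z, ∫ y, φ.normed volume y * N (z - y) * fderiv ℝ ψ z v := by
          refine integral_congr_ae (Eventually.of_forall fun z => ?_)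
          simp only [convolution, ContinuousLinearMap.lsmul_apply, smul_eq_mul]
          rw [← integral_mul_const]
      _ = ∫ y, ∫ z, φ.normed volume y * N (z - y) * fderiv ℝ ψ z v := integral_integral_swap h1
      _ = _ := by
          refine integral_congr_ae (Eventually.of_forall fun y => ?_)
          simp only
          rw [← integral_const_mul, ← integral_add_right_eq_self _ y]
          refine integral_congr_ae (Eventually.of_forall fun z => ?_)
          simp only [add_sub_cancel_right]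
          ring
  rw [e1]
  have h2 : ∀ y, |∫ z, N z * fderiv ℝ ψ (z + y) v| ≤ K := by
    intro y
    have := h (fun z => ψ (z + y)) (hψ.comp (contDiff_id.add contDiff_const))
      (hψs.comp_homeomorph (Homeomorph.addRight y)) (fun z => hψ1 _) v hv
    simpa only [fderiv_comp_add_right] using this
  calc |∫ y, φ.normed volume y * ∫ z, N z * fderiv ℝ ψ (z + y) v|
      ≤ ∫ y, ‖φ.normed volume y * ∫ z, N z * fderiv ℝ ψ (z + y) v‖ := by
        rw [← Real.norm_eq_abs]
        exact norm_integral_le_integral_norm _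
    _ ≤ ∫ y, φ.normed volume y * K := by
        refine integral_mono_of_nonneg (Eventually.of_forall fun _ => norm_nonneg _)
          (hρi.mul_const K) (Eventually.of_forall fun y => ?_)
        simp only [norm_mul, Real.norm_eq_abs, abs_of_nonneg (φ.nonneg_normed y)]
        exact mul_le_mul_of_nonneg_left (h2 y) (φ.nonneg_normed y)
    _ = K := by rw [integral_mul_const, φ.integral_normed, one_mul]

/-- **BVZ.** A function with values in `{0} ∪ [1, ∞)`, of bounded support and of variation at most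
`K` has integral at most `C K²`. -/
theorem exists_bvz : ∃ C : ℝ, 0 < C ∧ ∀ (N : ℂ → ℝ) (K R : ℝ), Integrable N →
    (∀ z, R < ‖z‖ → N z = 0) → (∀ᵐ z, N z = 0 ∨ 1 ≤ N z) →
    (∀ φ : ℂ → ℝ, ContDiff ℝ ∞ φ → HasCompactSupport φ → (∀ z, |φ z| ≤ 1) →
      ∀ v : ℂ, ‖v‖ ≤ 1 → |∫ z, N z * fderiv ℝ φ z v| ≤ K) →
    Integrable (fun z => N z ^ 2) ∧ ∫ z, N z ^ 2 ≤ C * K ^ 2 ∧ ∫ z, N z ≤ C * K ^ 2 := by
  obtain ⟨C, hC, hS⟩ := exists_sobolev
  refine ⟨C, hC, fun N K R hN hR h1 h => ?_⟩
  have hK : 0 ≤ K := (abs_nonneg _).trans (h 0 contDiff_const HasCompactSupport.zero (by simp) 0 (by simp))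
  have hNs : HasCompactSupport N := HasCompactSupport.intro (isCompact_closedBall (0 : ℂ) R)
    (fun z hz => hR z (by simpa using hz))
  let φ : ℕ → ContDiffBump (0 : ℂ) := fun n => ⟨1 / (n + 1), 2 / (n + 1), by positivity, by gcongr; norm_num⟩
  set Nn : ℕ → ℂ → ℝ := fun n => (φ n).normed volume ⋆[ContinuousLinearMap.lsmul ℝ ℝ, volume] N with hNn
  have hlim : ∀ᵐ z, Tendsto (fun n => Nn n z) atTop (𝓝 (N z)) := by
    apply ContDiffBump.ae_convolution_tendsto_right_of_locallyIntegrable (K := 2) (φ := φ)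
    · have : Tendsto (fun n : ℕ => (2 : ℝ) / (n + 1)) atTop (𝓝 0) :=
        by simpa [div_eq_mul_inv] using (tendsto_one_div_add_atTop_nhds_zero_nat (𝕜 := ℝ)).const_mul 2
      exact this
    · refine Eventually.of_forall fun n => ?_
      show (2 : ℝ) / (n + 1) ≤ 2 * (1 / (n + 1))
      rw [mul_one_div]
    · exact hN.locallyIntegrable
  have hsm : ∀ n, ContDiff ℝ ∞ (Nn n) := fun n =>
    (φ n).hasCompactSupport_normed.contDiff_convolution_left _ (φ n).contDiff_normed hN.locallyIntegrable
  have hcs : ∀ n, HasCompactSupport (Nn n) := fun n =>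
    (φ n).hasCompactSupport_normed.convolution _ hNs
  have hb : ∀ n, ∫ z, Nn n z ^ 2 ≤ C * K ^ 2 := fun n =>
    hS _ K (hsm n) (hcs n) (fun ψ a b d v hv => dual_bound_convolution (φ n) hN h ψ a b d v hv)
  have hi : ∀ n, Integrable (fun z => Nn n z ^ 2) := fun n =>
    ((hsm n).continuous.pow 2).integrable_of_hasCompactSupport (by
      refine (hcs n).mono (fun z hz => ?_)
      simp only [Function.mem_support] at hz ⊢
      intro h0; exact hz (by simp [h0]))
  have hF : ∫⁻ z, ENNReal.ofReal (N z ^ 2) ≤ ENNReal.ofReal (C * K ^ 2) := by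
    calc ∫⁻ z, ENNReal.ofReal (N z ^ 2)
        = ∫⁻ z, liminf (fun n => ENNReal.ofReal (Nn n z ^ 2)) atTop := by
          refine lintegral_congr_ae ?_
          filter_upwards [hlim] with z hz
          exact ((ENNReal.continuous_ofReal.tendsto _).comp (hz.pow 2)).liminf_eq.symm
      _ ≤ liminf (fun n => ∫⁻ z, ENNReal.ofReal (Nn n z ^ 2)) atTop :=
          lintegral_liminf_le (fun n => ((hsm n).continuous.pow 2).measurable.ennreal_ofReal)
      _ ≤ ENNReal.ofReal (C * K ^ 2) := by
          refine liminf_le_of_le (by isBoundedDefault) (fun b hb' => ?_)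
          obtain ⟨n, hn⟩ := hb'.exists
          refine hn.trans ?_
          rw [← ofReal_integral_eq_lintegral_ofReal (hi n) (Eventually.of_forall fun z => sq_nonneg _)]
          exact ENNReal.ofReal_le_ofReal (hb n)
  have hN2 : Integrable (fun z => N z ^ 2) := by
    refine ⟨hN.aestronglyMeasurable.pow 2, ?_⟩
    rw [hasFiniteIntegral_iff_ofReal (Eventually.of_forall fun z => sq_nonneg _)]
    exact hF.trans_lt ENNReal.ofReal_lt_top
  have h2 : ∫ z, N z ^ 2 ≤ C * K ^ 2 := by
    rw [← ofReal_integral_eq_lintegral_ofReal hN2 (Eventually.of_forall fun z => sq_nonneg _)] at hF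
    exact (ENNReal.ofReal_le_ofReal_iff (by positivity)).1 hF
  refine ⟨hN2, h2, le_trans ?_ h2⟩
  refine integral_mono_ae hN hN2 ?_
  filter_upwards [h1] with z hz
  rcases hz with hz | hz
  · simp [hz]
  · nlinarith

end Vale.Agent.P247.H264
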