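import Vale.Agent.P247.H264.Mass

/-!
# Rescaling of boxes, complex frames
-/

open scoped ContDiff Topology ENNReal
open Set MeasureTheory Filter Metric

noncomputable section

namespace Vale.Agent.P247.H264

open Vale.Agent.P247.H74 Vale.Agent.P247.H574

variable {D : Data}

/-! ## Complex multiples -/

/-- `a ↦ cm D x a v` -/
def cmL (D : Data) (x v : R4) : ℂ →L[ℝ] R4 :=
  Complex.reCLM.smulRight v + Complex.imCLM.smulRight (D.J x v)

theorem cmL_apply (x v : R4) (a : ℂ) : cmL D x v a = cm D x a v := by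
  simp [cmL, cm]

theorem cm_add (x v w : R4) (a : ℂ) : cm D x a (v + w) = cm D x a v + cm D x a w := by
  simp only [cm, map_add, smul_add]
  abel

theorem cm_add' (x v : R4) (a b : ℂ) : cm D x (a + b) v = cm D x a v + cm D x b v := by
  simp only [← cmL_apply, map_add]

theorem cm_smul (x v : R4) (t : ℝ) (a : ℂ) : cm D x (t * a) v = t • cm D x a v := by
  have h : ((t : ℂ) * a) = t • a := by simp
  rw [h]
  simp only [← cmL_apply, map_smul]

theorem cm_mul (x v : R4) (a b : ℂ) : cm D x a (cm D x b v) = cm D x (a * b) v := by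
  simp only [cm, map_add, map_smul, D.J_sq, Complex.mul_re, Complex.mul_im, smul_add, smul_smul,
    smul_neg, sub_smul, add_smul]
  abel

theorem cm_one (x v : R4) : cm D x 1 v = v := by simp [cm]

/-- the frame map `(a, b) ↦ a v + b h` -/
def frL (D : Data) (x v h : R4) : ℂ × ℂ →L[ℝ] R4 := (cmL D x v).coprod (cmL D x h)

theorem frL_apply (x v h : R4) (a b : ℂ) : frL D x v h (a, b) = cm D x a v + cm D x b h := by
  simp [frL, cmL_apply]

theorem frL_inj {x v h : R4} (hf : ∀ a b : ℂ, cm D x a v + cm D x b h = 0 → a = 0 ∧ b = 0) :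
    Function.Injective (frL D x v h) := by
  rw [injective_iff_map_eq_zero]
  rintro ⟨a, b⟩ hab
  rw [frL_apply] at hab
  obtain ⟨h1, h2⟩ := hf a b hab
  rw [h1, h2]; rfl

theorem frL_surj {x v h : R4} (hf : ∀ a b : ℂ, cm D x a v + cm D x b h = 0 → a = 0 ∧ b = 0)
    (w : R4) : ∃ a b : ℂ, cm D x a v + cm D x b h = w := by
  have hdim : Module.finrank ℝ (ℂ × ℂ) = Module.finrank ℝ R4 := by
    rw [Module.finrank_prod, Complex.finrank_real_complex, Module.finrank_fin_fun]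
  have h1 : Function.Surjective (frL D x v h : ℂ × ℂ →ₗ[ℝ] R4) :=
    (LinearMap.injective_iff_surjective_of_finrank_eq_finrank hdim).1 (frL_inj hf)
  obtain ⟨⟨a, b⟩, hab⟩ := h1 w
  exact ⟨a, b, by rw [← frL_apply]; exact hab⟩

theorem frame_const {x v h : R4} (hf : ∀ a b : ℂ, cm D x a v + cm D x b h = 0 → a = 0 ∧ b = 0) :
    ∃ K > 0, ‖v‖ ≤ K ∧ ‖h‖ ≤ K ∧ ∀ a b : ℂ, ‖a‖ + ‖b‖ ≤ K * ‖cm D x a v + cm D x b h‖ := by
  obtain ⟨k, hk, hanti⟩ := LinearMap.exists_antilipschitzWith (frL D x v h : ℂ × ℂ →ₗ[ℝ] R4)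
    (LinearMap.ker_eq_bot.2 (frL_inj hf))
  refine ⟨max (2 * k) (max ‖v‖ ‖h‖), lt_max_of_lt_left (by positivity),
    (le_max_left _ _).trans (le_max_right _ _), (le_max_right _ _).trans (le_max_right _ _),
    fun a b => ?_⟩
  have h1 := hanti.le_mul_dist (a, b) 0
  rw [map_zero, dist_zero_right, dist_zero_right] at h1
  have h2 : ‖(frL D x v h : ℂ × ℂ →ₗ[ℝ] R4) (a, b)‖ = ‖cm D x a v + cm D x b h‖ := by
    rw [← frL_apply]; rfl
  rw [h2] at h1
  have h3 : ‖a‖ ≤ ‖((a, b) : ℂ × ℂ)‖ := norm_fst_le (a, b)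
  have h4 : ‖b‖ ≤ ‖((a, b) : ℂ × ℂ)‖ := norm_snd_le (a, b)
  calc ‖a‖ + ‖b‖ ≤ 2 * (k * ‖cm D x a v + cm D x b h‖) := by linarith
    _ = (2 * k) * ‖cm D x a v + cm D x b h‖ := by ring
    _ ≤ _ := mul_le_mul_of_nonneg_right (le_max_left _ _) (norm_nonneg _)

/-! ## Rescaling -/

theorem isOpen_PD (r : ℝ) : IsOpen (PD r) := isOpen_ball.prod isOpen_ball

/-- `(z, y) ↦ (s z, t y)` -/
def scL (s t : ℝ) : ℂ × ℂ →L[ℝ] ℂ × ℂ :=
  (s • ContinuousLinearMap.id ℝ ℂ).prodMap (t • ContinuousLinearMap.id ℝ ℂ)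

theorem scL_apply (s t : ℝ) (p : ℂ × ℂ) : scL s t p = (s • p.1, t • p.2) := by
  rfl

theorem scL_mem {s t r : ℝ} (hs : 0 < s) (hs1 : s ≤ 1) (ht : 0 < t) (ht1 : t ≤ 1) {p : ℂ × ℂ}
    (hp : p ∈ PD r) : scL s t p ∈ PD r := by
  rw [scL_apply]
  obtain ⟨h1, h2⟩ := hp
  rw [mem_ball_zero_iff] at h1 h2
  refine ⟨?_, ?_⟩ <;> rw [mem_ball_zero_iff, norm_smul, Real.norm_eq_abs]
  · rw [abs_of_pos hs]
    nlinarith [norm_nonneg p.1]
  · rw [abs_of_pos ht]
    nlinarith [norm_nonneg p.2]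

theorem scL_bij {s t : ℝ} (hs : s ≠ 0) (ht : t ≠ 0) : Function.Bijective (scL s t) := by
  constructor
  · rintro ⟨a, b⟩ ⟨a', b'⟩ hab
    rw [scL_apply, scL_apply, Prod.mk.injEq] at hab
    exact Prod.ext (smul_right_injective ℂ hs hab.1) (smul_right_injective ℂ ht hab.2)
  · rintro ⟨a, b⟩
    refine ⟨(s⁻¹ • a, t⁻¹ • b), ?_⟩
    rw [scL_apply]
    simp only [smul_smul, mul_inv_cancel₀ hs, mul_inv_cancel₀ ht, one_smul]

theorem Box.diffAt (b : Box D) {p : ℂ × ℂ} (hp : p ∈ PD 2) : DifferentiableAt ℝ b.Θ p :=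
  ((b.smooth.contDiffAt ((isOpen_PD 2).mem_nhds hp)).differentiableAt (by simp))

/-- the rescaled box -/
def Box.scale (b : Box D) {s t : ℝ} (hs : 0 < s) (hs1 : s ≤ 1) (ht : 0 < t) (ht1 : t ≤ 1) : Box D where
  Θ p := b.Θ (scL s t p)
  smooth := b.smooth.comp (scL s t).contDiff.contDiffOn (fun _ hp => scL_mem hs hs1 ht ht1 hp)
  inj := fun p hp q hq k h => by
    obtain ⟨h1, h2⟩ := b.inj _ (scL_mem hs hs1 ht ht1 hp) _ (scL_mem hs hs1 ht ht1 hq) k h
    exact ⟨(scL_bij hs.ne' ht.ne').1 h1, h2⟩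
  imm := fun p hp => by
    have h := fderiv_comp p (Box.diffAt b (scL_mem hs hs1 ht ht1 hp)) (scL s t).differentiableAt
    have h' : fderiv ℝ (fun p => b.Θ (scL s t p)) p = (fderiv ℝ b.Θ (scL s t p)).comp (scL s t) := by
      rw [(scL s t).fderiv] at h
      exact h
    rw [h']
    exact (b.imm _ (scL_mem hs hs1 ht ht1 hp)).comp (scL_bij hs.ne' ht.ne')
  hol := fun p hp => by
    have h := fderiv_comp p (Box.diffAt b (scL_mem hs hs1 ht ht1 hp)) (scL s t).differentiableAt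
    have h' : fderiv ℝ (fun p => b.Θ (scL s t p)) p = (fderiv ℝ b.Θ (scL s t p)).comp (scL s t) := by
      rw [(scL s t).fderiv] at h
      exact h
    have h3 := b.hol _ (scL_mem hs hs1 ht ht1 hp)
    rw [h', ContinuousLinearMap.comp_apply, ContinuousLinearMap.comp_apply, scL_apply (p := (0, Complex.I)),
      scL_apply (p := (0, 1))]
    have e1 : ((s • (0 : ℂ), t • Complex.I) : ℂ × ℂ) = t • (0, Complex.I) := by simp
    have e2 : ((s • (0 : ℂ), t • (1 : ℂ)) : ℂ × ℂ) = t • (0, 1) := by simp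
    simp only
    rw [e1, e2, map_smul, map_smul, map_smul, h3]
  m p := b.m (scL s t p)
  A p := (s / t : ℝ) * b.A (scL s t p)
  m_smooth := b.m_smooth.comp (scL s t).contDiff.contDiffOn (fun _ hp => scL_mem hs hs1 ht ht1 hp)
  A_smooth := contDiffOn_const.mul
    (b.A_smooth.comp (scL s t).contDiff.contDiffOn (fun _ hp => scL_mem hs hs1 ht ht1 hp))
  m_lt := fun p hp => b.m_lt _ (scL_mem hs hs1 ht ht1 hp)
  graph := fun p hp a β => by
    have hs0 := hs.ne'
    have ht0 := ht.ne'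
    have hsC : (s : ℂ) ≠ 0 := by exact_mod_cast hs0
    have htC : (t : ℂ) ≠ 0 := by exact_mod_cast ht0
    have h := fderiv_comp p (Box.diffAt b (scL_mem hs hs1 ht ht1 hp)) (scL s t).differentiableAt
    have h' : fderiv ℝ (fun p => b.Θ (scL s t p)) p = (fderiv ℝ b.Θ (scL s t p)).comp (scL s t) := by
      rw [(scL s t).fderiv] at h
      exact h
    have hg := b.graph _ (scL_mem hs hs1 ht ht1 hp) ((t / s : ℂ) * a) ((t / s : ℂ) * β)
    rw [h']
    have e : ∀ ζ : ℂ, ((fderiv ℝ b.Θ (scL s t p)).comp (scL s t)) (ζ, a * ζ + β * (starRingEnd ℂ) ζ) =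
        fderiv ℝ b.Θ (scL s t p) (s * ζ, (t / s : ℂ) * a * (s * ζ) +
          (t / s : ℂ) * β * (starRingEnd ℂ) (s * ζ)) := by
      intro ζ
      rw [ContinuousLinearMap.comp_apply, scL_apply (p := (ζ, _))]
      congr 1
      refine Prod.ext (by simp) ?_
      simp only [map_mul, Complex.conj_ofReal, Complex.real_smul]
      field_simp
    have l1 : (β = b.m (scL s t p) * a + ((s / t : ℝ) : ℂ) * b.A (scL s t p)) ↔
        ((t / s : ℂ) * β = b.m (scL s t p) * ((t / s : ℂ) * a) + b.A (scL s t p)) := by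
      push_cast
      constructor
      · intro h1
        rw [h1]
        field_simp
      · intro h1
        have : β = (s / t : ℂ) * ((t / s : ℂ) * β) := by field_simp
        rw [this, h1]
        field_simp
    rw [l1, hg]
    constructor
    · intro h1 ζ
      obtain ⟨ξ, hξ⟩ := h1 (s * ζ)
      refine ⟨(s : ℂ)⁻¹ * ξ, ?_⟩
      rw [e, e, hξ]
      congr 1
      have : (s : ℂ) * ((s : ℂ)⁻¹ * ξ) = ξ := by field_simp
      rw [this]
    · intro h1 ζ
      obtain ⟨ξ, hξ⟩ := h1 ((s : ℂ)⁻¹ * ζ)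
      refine ⟨s * ξ, ?_⟩
      rw [e, e] at hξ
      have : (s : ℂ) * ((s : ℂ)⁻¹ * ζ) = ζ := by field_simp
      rw [this] at hξ
      exact hξ

end Vale.Agent.P247.H264
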