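import Vale.Agent.P247.H264.Null
import Vale.Agent.P247.H264.Scale

/-!
# GB: good boxes
-/

open scoped ContDiff Topology ENNReal
open Set MeasureTheory Filter Metric

noncomputable section

namespace Vale.Agent.P247.H264

open Vale.Agent.P247.H74 Vale.Agent.P247.H574

variable {D : Data}

theorem isClosed_supp (S : ICur D) : IsClosed S.supp := by
  rw [← isOpen_compl_iff, Metric.isOpen_iff]
  intro x hx
  have h : ∃ ε > 0, ∀ φ, CF φ → tsupport φ ⊆ ball x ε → S.T φ = 0 := by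
    by_contra hcon
    push Not at hcon
    exact hx (fun ε hε => hcon ε hε)
  obtain ⟨ε, hε, h⟩ := h
  refine ⟨ε / 2, by positivity, fun y hy hys => ?_⟩
  obtain ⟨φ, hφ, hs, hT⟩ := hys (ε / 2) (by positivity)
  refine hT (h φ hφ (hs.trans (ball_subset_ball' ?_)))
  rw [mem_ball] at hy
  linarith

/-- the affine model, as a sum of continuous linear maps -/
theorem lmod_eq (x v h : R4) (ε : ℝ) (q : ℂ × ℂ × ℂ) : lmod D x v h ε q =
    x + ε • (cmL D x h q.2.1 + cmL D x v q.2.2 + cmL D x h (q.1 * q.2.2)) := by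
  simp only [lmod, cmL_apply]

theorem lmod_diff (x v h : R4) (ε : ℝ) : Differentiable ℝ (lmod D x v h ε) := by
  have e : lmod D x v h ε = fun q => x + ε • (cmL D x h q.2.1 + cmL D x v q.2.2 + cmL D x h (q.1 * q.2.2)) :=
    funext (lmod_eq x v h ε)
  rw [e]
  have h1 : Differentiable ℝ (fun q : ℂ × ℂ × ℂ => cmL D x h q.2.1) :=
    (cmL D x h).differentiable.comp (differentiable_fst.comp differentiable_snd)
  have h2 : Differentiable ℝ (fun q : ℂ × ℂ × ℂ => cmL D x v q.2.2) :=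
    (cmL D x v).differentiable.comp (differentiable_snd.comp differentiable_snd)
  have h3 : Differentiable ℝ (fun q : ℂ × ℂ × ℂ => cmL D x h (q.1 * q.2.2)) :=
    (cmL D x h).differentiable.comp (differentiable_fst.mul (differentiable_snd.comp differentiable_snd))
  exact ((h1.add h2).add h3).const_smul ε |>.const_add x

theorem lmod_fderiv (x v h : R4) (ε : ℝ) (l : ℂ) :
    fderiv ℝ (lmod D x v h ε) (l, 0, 0) (0, 0, 1) = ε • (v + cm D x l h) := by
  have h1 : HasDerivAt (fun t : ℝ => ((l, 0, 0) : ℂ × ℂ × ℂ) + t • ((0, 0, 1) : ℂ × ℂ × ℂ)) (0, 0, 1) 0 := by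
    have := ((hasDerivAt_id (0 : ℝ)).smul_const ((0, 0, 1) : ℂ × ℂ × ℂ)).const_add (l, 0, 0)
    simpa using this
  have h2 : HasFDerivAt (lmod D x v h ε) (fderiv ℝ (lmod D x v h ε) (l, 0, 0))
      (((l, 0, 0) : ℂ × ℂ × ℂ) + (0 : ℝ) • ((0, 0, 1) : ℂ × ℂ × ℂ)) := by
    rw [zero_smul, add_zero]
    exact (lmod_diff x v h ε _).hasFDerivAt
  have h3 := h2.comp_hasDerivAt (0 : ℝ) h1
  have h4 : (lmod D x v h ε ∘ fun t : ℝ => ((l, 0, 0) : ℂ × ℂ × ℂ) + t • ((0, 0, 1) : ℂ × ℂ × ℂ)) =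
      fun t : ℝ => x + t • (ε • (v + cm D x l h)) := by
    funext t
    simp only [Function.comp_apply, lmod_eq, Prod.smul_mk, Prod.mk_add_mk, smul_zero, add_zero,
      zero_add, map_zero]
    have e1 : (t • (1 : ℂ)) = t • (1 : ℂ) := rfl
    rw [map_smul, mul_smul_comm, mul_one, map_smul, cmL_apply, cmL_apply, cm_one, ← smul_add,
      smul_comm]
  rw [h4] at h3
  have h5 : HasDerivAt (fun t : ℝ => x + t • (ε • (v + cm D x l h))) (ε • (v + cm D x l h)) 0 := by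
    have := ((hasDerivAt_id (0 : ℝ)).smul_const (ε • (v + cm D x l h))).const_add x
    simpa using this
  exact h3.unique h5

/-- **GB** -/
theorem GB (hBX : BX_statement) (hCO : CO_statement) : GB_statement := by
  intro D S x _hx v h δ hδ hfr
  obtain ⟨c, hc, ρ₀, hρ₀, hd⟩ := hCO D S (massM S) (isMass_massM S)
  obtain ⟨K, hK, hv, hh, hab⟩ := frame_const hfr
  set δ' : ℝ := min (1 / (2 * K)) (δ / (4 * K)) with hδ'
  have hδ'0 : 0 < δ' := lt_min (by positivity) (by positivity)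
  have hδ'1 : K * δ' ≤ 1 / 2 := by
    calc K * δ' ≤ K * (1 / (2 * K)) := mul_le_mul_of_nonneg_left (min_le_left _ _) hK.le
      _ = 1 / 2 := by field_simp
  have hδ'2 : K * δ' ≤ δ / 4 := by
    calc K * δ' ≤ K * (δ / (4 * K)) := mul_le_mul_of_nonneg_left (min_le_right _ _) hK.le
      _ = δ / 4 := by field_simp
  obtain ⟨C, hC, ε, hε, hB⟩ := hBX D K δ' hK hδ'0
  obtain ⟨Ξ, hΞs, hΞ1, -, hΞb, hΞp⟩ := hB ε hε le_rfl x v h hv hh hab
  -- the exceptional set
  set G : Set (R4 × (ℂ × ℝ)) := {g | ∃ l y : ℂ, l ∈ ball (0 : ℂ) 1 ∧ 1 / 4 ≤ ‖y‖ ∧ ‖y‖ ≤ 1 ∧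
    Ξ (l, 0, y) ∈ S.supp ∧ g = (Ξ (l, 0, y), (l, ‖y‖))} with hG
  have h12 : ball (0 : ℂ) 1 ⊆ ball 0 2 := ball_subset_ball (by norm_num)
  have hnull : volume (Prod.snd '' G) = 0 := by
    refine image_null (μ := massM S) (C := S.supp) hc hρ₀ hd x (C * ε * 2) (L := 8 * (C / ε))
      (by positivity) G ?_ ?_
    · rintro g ⟨l, y, hl, hy1, hy2, hm, rfl⟩
      refine ⟨hm, ?_⟩
      obtain ⟨b, hb1, hb2, -, hb3⟩ := hΞb l (h12 hl)
      have hp : ((0, y) : ℂ × ℂ) ∈ PD 2 :=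
        ⟨mem_ball_self (by norm_num), by rw [mem_ball_zero_iff]; linarith⟩
      have h0 : ((0, 0) : ℂ × ℂ) ∈ PD 2 :=
        ⟨mem_ball_self (by norm_num), mem_ball_self (by norm_num)⟩
      have h1 := (hb3 _ hp _ h0).2
      rw [hb2, hb1 _ hp] at h1
      rw [mem_closedBall, dist_eq_norm]
      refine h1.trans ?_
      have h2 : ‖((0, y) : ℂ × ℂ) - (0, 0)‖ ≤ 2 := by
        rw [Prod.mk_sub_mk, sub_zero, sub_zero, Prod.norm_def]
        simp only [norm_zero]
        exact max_le (by norm_num) (by linarith)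
      exact mul_le_mul_of_nonneg_left h2 (by positivity)
    · rintro g ⟨l, y, hl, hy1, hy2, -, rfl⟩ g' ⟨l', y', hl', hy1', hy2', -, rfl⟩
      have hy : y ∈ ball (0 : ℂ) 2 := by rw [mem_ball_zero_iff]; linarith
      have hy' : y' ∈ ball (0 : ℂ) 2 := by rw [mem_ball_zero_iff]; linarith
      have h1 := hΞp l (h12 hl) l' (h12 hl') y hy y' hy'
      rw [dist_eq_norm (Ξ (l, 0, y))]
      set N := ‖Ξ (l, 0, y) - Ξ (l', 0, y')‖ with hN
      have h2 : ‖y - y'‖ + ‖l * y - l' * y'‖ ≤ C / ε * N := by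
        have h3 := mul_le_mul_of_nonneg_left h1 (show 0 ≤ C / ε by positivity)
        calc ‖y - y'‖ + ‖l * y - l' * y'‖
            = C / ε * (ε / C * (‖y - y'‖ + ‖l * y - l' * y'‖)) := by field_simp
          _ ≤ _ := h3
      have hN0 : 0 ≤ C / ε * N := by positivity
      show dist ((l, ‖y‖) : ℂ × ℝ) (l', ‖y'‖) ≤ _
      rw [Prod.dist_eq]
      simp only
      have hd1 : ‖l - l'‖ * ‖y‖ ≤ ‖l * y - l' * y'‖ + ‖y - y'‖ := by
        have e : (l - l') * y = (l * y - l' * y') - l' * (y - y') := by ring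
        rw [← norm_mul, e]
        refine (norm_sub_le _ _).trans ?_
        have hl'1 : ‖l'‖ ≤ 1 := by
          rw [mem_ball_zero_iff] at hl'
          exact hl'.le
        rw [norm_mul]
        have := mul_le_mul_of_nonneg_right hl'1 (norm_nonneg (y - y'))
        linarith
      have hA1 : dist l l' ≤ 8 * (C / ε) * N := by
        rw [dist_eq_norm]
        have := mul_le_mul_of_nonneg_left hy1 (norm_nonneg (l - l'))
        have e : 8 * (C / ε) * N = 8 * (C / ε * N) := by ring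
        rw [e]
        linarith
      have hA2 : dist ‖y‖ ‖y'‖ ≤ 8 * (C / ε) * N := by
        rw [Real.dist_eq]
        have := abs_norm_sub_norm_le y y'
        have e : 8 * (C / ε) * N = 8 * (C / ε * N) := by ring
        rw [e]
        have := norm_nonneg (l * y - l' * y')
        linarith
      exact max_le hA1 hA2
  -- choice of the direction and of the radius
  set δ₁ : ℝ := min 1 (δ / 4) with hδ₁
  have hδ₁0 : 0 < δ₁ := lt_min one_pos (by positivity)
  obtain ⟨⟨l, r⟩, ⟨hl, hr⟩, hlr⟩ : ∃ q ∈ (ball (0 : ℂ) δ₁ ×ˢ Ioo (1 / 4 : ℝ) (1 / 2) : Set (ℂ × ℝ)),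
      q ∉ Prod.snd '' G := by
    by_contra hcon
    push Not at hcon
    have hsub : (ball (0 : ℂ) δ₁ ×ˢ Ioo (1 / 4 : ℝ) (1 / 2) : Set (ℂ × ℝ)) ⊆ Prod.snd '' G :=
      fun q hq => hcon q hq
    have h1 : volume (ball (0 : ℂ) δ₁ ×ˢ Ioo (1 / 4 : ℝ) (1 / 2) : Set (ℂ × ℝ)) = 0 :=
      measure_mono_null hsub hnull
    have h2 : (volume : Measure (ℂ × ℝ)) (ball (0 : ℂ) δ₁ ×ˢ Ioo (1 / 4 : ℝ) (1 / 2)) =
        volume (ball (0 : ℂ) δ₁) * volume (Ioo (1 / 4 : ℝ) (1 / 2)) := Measure.prod_prod _ _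
    rw [h2, mul_eq_zero] at h1
    rcases h1 with h1 | h1
    · exact (measure_ball_pos volume (0 : ℂ) hδ₁0).ne' h1
    · rw [Real.volume_Ioo] at h1
      norm_num at h1
  simp only at hl hr
  have hl1 : l ∈ ball (0 : ℂ) 1 := ball_subset_ball (min_le_left _ _) hl
  have hl2 : l ∈ ball (0 : ℂ) 2 := h12 hl1
  have hlδ : ‖l‖ ≤ δ / 4 := by
    rw [mem_ball_zero_iff] at hl
    exact hl.le.trans (min_le_right _ _)
  have hr1 := hr.1
  have hr2 := hr.2
  have hcirc : ∀ y : ℂ, ‖y‖ = r → Ξ (l, 0, y) ∉ S.supp := by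
    intro y hy hm
    exact hlr ⟨(Ξ (l, 0, y), (l, ‖y‖)), ⟨l, y, hl1, by rw [hy]; exact hr1.le, by rw [hy]; linarith, hm, rfl⟩,
      by simp [hy]⟩
  obtain ⟨b, hb1, hb2, -, -⟩ := hΞb l hl2
  -- a compact neighbourhood
  have hU : IsOpen (PD 2 ∩ b.Θ ⁻¹' (S.supp)ᶜ) :=
    b.smooth.continuousOn.isOpen_inter_preimage (isOpen_PD 2) (isClosed_supp S).isOpen_compl
  have hK0 : IsCompact (({0} : Set ℂ) ×ˢ sphere (0 : ℂ) r) := isCompact_singleton.prod (isCompact_sphere _ _)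
  have hKU : (({0} : Set ℂ) ×ˢ sphere (0 : ℂ) r) ⊆ PD 2 ∩ b.Θ ⁻¹' (S.supp)ᶜ := by
    rintro ⟨z, y⟩ ⟨hz, hy⟩
    rw [mem_singleton_iff] at hz
    rw [mem_sphere_zero_iff_norm] at hy
    simp only at hz hy
    subst hz
    have hp : ((0, y) : ℂ × ℂ) ∈ PD 2 :=
      ⟨mem_ball_self (by norm_num), by rw [mem_ball_zero_iff]; linarith⟩
    refine ⟨hp, ?_⟩
    show b.Θ (0, y) ∉ S.supp
    rw [hb1 _ hp]
    exact hcirc y hy
  obtain ⟨η, hη, hηU⟩ := hK0.exists_thickening_subset_open hU hKU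
  set η' : ℝ := min (η / 2) (1 / 8) with hη'
  have hη'0 : 0 < η' := lt_min (by positivity) (by norm_num)
  have hη'1 : η' ≤ 1 / 8 := min_le_right _ _
  have hη'2 : η' < η := (min_le_left _ _).trans_lt (by linarith)
  set t : ℝ := r + η' with ht
  have ht0 : 0 < t := by linarith
  have ht1 : t ≤ 1 := by linarith
  set b' := Box.scale b hη'0 (by linarith : η' ≤ 1) ht0 ht1 with hb'
  have hz2 : ((0, 0) : ℂ × ℂ) ∈ PD 2 := ⟨mem_ball_self (by norm_num), mem_ball_self (by norm_num)⟩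
  have hsc0 : scL η' t (0, 0) = (0, 0) := by rw [scL_apply]; simp
  refine ⟨b', (r - η') / t, ?_, ⟨?_, ?_, ?_⟩, ?_⟩
  · show b.Θ (scL η' t (0, 0)) = x
    rw [hsc0, hb2]
  · exact div_pos (by linarith) ht0
  · rw [div_lt_one ht0]; linarith
  · intro z hz y hy hρ
    rw [mem_closedBall_zero_iff] at hz hy
    show b.Θ (scL η' t (z, y)) ∉ S.supp
    have hy0 : 0 < ‖y‖ := lt_of_lt_of_le (div_pos (by linarith) ht0) hρ
    have hmem : scL η' t (z, y) ∈ thickening η (({0} : Set ℂ) ×ˢ sphere (0 : ℂ) r) := by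
      rw [mem_thickening_iff]
      refine ⟨(0, (r / ‖y‖ : ℝ) • y), ⟨rfl, ?_⟩, ?_⟩
      · rw [mem_sphere_zero_iff_norm, norm_smul, Real.norm_eq_abs, abs_of_nonneg (by positivity)]
        field_simp
      · rw [scL_apply, Prod.dist_eq]
        simp only
        refine max_lt ?_ ?_
        · rw [dist_zero_right, norm_smul, Real.norm_eq_abs, abs_of_pos hη'0]
          nlinarith
        · rw [dist_eq_norm, ← sub_smul, norm_smul, Real.norm_eq_abs]
          have e : |t - r / ‖y‖| * ‖y‖ = |t * ‖y‖ - r| := by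
            rw [← abs_of_pos hy0, ← abs_mul, abs_of_pos hy0]
            congr 1
            field_simp
          rw [e]
          refine lt_of_le_of_lt ?_ hη'2
          rw [abs_le]
          rw [div_le_iff₀ ht0] at hρ
          constructor
          · linarith
          · nlinarith
    exact (hηU hmem).2
  · -- the vertical direction
    have hfd : fderiv ℝ b'.Θ (0, 0) (0, 1) = t • fderiv ℝ Ξ (l, 0, 0) (0, 0, 1) := by
      have h1 : HasFDerivAt b'.Θ ((fderiv ℝ b.Θ (0, 0)).comp (scL η' t)) (0, 0) := by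
        have h2 : HasFDerivAt b.Θ (fderiv ℝ b.Θ (0, 0)) (scL η' t (0, 0)) := by
          rw [hsc0]
          exact (Box.diffAt b hz2).hasFDerivAt
        exact h2.comp (0, 0) (scL η' t).hasFDerivAt
      have h3 : HasFDerivAt Ξ (fderiv ℝ Ξ (l, 0, 0)) (l, (0, 0)) := by
        have hop : IsOpen (ball (0 : ℂ) 2 ×ˢ ball (0 : ℂ) 2 ×ˢ ball (0 : ℂ) 2) :=
          isOpen_ball.prod (isOpen_ball.prod isOpen_ball)
        have hmem : ((l, 0, 0) : ℂ × ℂ × ℂ) ∈ ball (0 : ℂ) 2 ×ˢ ball (0 : ℂ) 2 ×ˢ ball (0 : ℂ) 2 :=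
          ⟨hl2, mem_ball_self (by norm_num), mem_ball_self (by norm_num)⟩
        exact ((hΞs.contDiffAt (hop.mem_nhds hmem)).differentiableAt (by simp)).hasFDerivAt
      have h4 : HasFDerivAt (fun p : ℂ × ℂ => Ξ (l, p)) ((fderiv ℝ Ξ (l, 0, 0)).comp
          (ContinuousLinearMap.inr ℝ ℂ (ℂ × ℂ))) (0, 0) :=
        h3.comp (0, 0) (hasFDerivAt_prodMk_right l (0, 0))
      have h5 : fderiv ℝ b.Θ (0, 0) = (fderiv ℝ Ξ (l, 0, 0)).comp (ContinuousLinearMap.inr ℝ ℂ (ℂ × ℂ)) := by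
        refine HasFDerivAt.fderiv (h4.congr_of_eventuallyEq ?_)
        filter_upwards [(isOpen_PD 2).mem_nhds hz2] with p hp
        exact hb1 p hp
      rw [h1.fderiv, h5, ContinuousLinearMap.comp_apply, ContinuousLinearMap.comp_apply,
        ContinuousLinearMap.inr_apply, scL_apply]
      have e : ((0, η' • (0 : ℂ), t • (1 : ℂ)) : ℂ × ℂ × ℂ) = t • (0, 0, 1) := by simp
      simp only
      rw [e, map_smul]
    set w := fderiv ℝ Ξ (l, 0, 0) (0, 0, 1) with hw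
    have herr : ‖w - ε • (v + cm D x l h)‖ ≤ ε * δ' := by
      have hmem : ((l, 0, 0) : ℂ × ℂ × ℂ) ∈ ball (0 : ℂ) 2 ×ˢ ball (0 : ℂ) 2 ×ˢ ball (0 : ℂ) 2 :=
        ⟨hl2, mem_ball_self (by norm_num), mem_ball_self (by norm_num)⟩
      have h1 := (hΞ1 _ hmem).2
      have h2 := (fderiv ℝ Ξ (l, 0, 0) - fderiv ℝ (lmod D x v h ε) (l, 0, 0)).le_opNorm (0, 0, 1)
      have h3 : ‖((0, 0, 1) : ℂ × ℂ × ℂ)‖ = 1 := by simp [Prod.norm_def]
      rw [h3, mul_one, sub_apply, lmod_fderiv] at h2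
      exact h2.trans h1
    obtain ⟨α, β, hαβ⟩ := frL_surj hfr (w - ε • (v + cm D x l h))
    have hsum := hab α β
    rw [hαβ] at hsum
    have hα : ‖α‖ + ‖β‖ ≤ K * δ' * ε := by
      refine hsum.trans ((mul_le_mul_of_nonneg_left herr hK.le).trans (le_of_eq (by ring)))
    have hw2 : w = cm D x (ε + α) v + cm D x (ε * l + β) h := by
      have e1 : w = (w - ε • (v + cm D x l h)) + ε • (v + cm D x l h) := by abel
      rw [e1, ← hαβ, cm_add', cm_add']
      have e2 : cm D x (ε : ℂ) v = ε • v := by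
        have := cm_smul (D := D) x v ε 1
        rw [mul_one, cm_one] at this
        exact this
      rw [e2, cm_smul, smul_add]
      abel
    set c₀ : ℂ := ε + α with hc₀
    have hαn : ‖α‖ ≤ ε / 2 := by
      have := norm_nonneg β
      have h2 : K * δ' * ε ≤ 1 / 2 * ε := mul_le_mul_of_nonneg_right hδ'1 hε.le
      linarith
    have hc₀n : ε / 2 ≤ ‖c₀‖ := by
      have h1 : ‖(ε : ℂ)‖ = ε := by simp [abs_of_pos hε]
      have h2 := norm_sub_norm_le (ε : ℂ) (-α)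
      rw [norm_neg, sub_neg_eq_add, h1] at h2
      linarith
    have hc₀0 : c₀ ≠ 0 := by
      intro h0
      rw [h0, norm_zero] at hc₀n
      linarith
    refine ⟨t * c₀, (ε * l + β) / c₀, mul_ne_zero (by exact_mod_cast ht0.ne') hc₀0, ?_, ?_⟩
    · rw [norm_div, div_le_iff₀ (norm_pos_iff.2 hc₀0)]
      have h1 : ‖(ε : ℂ) * l + β‖ ≤ ε * (δ / 4) + (δ / 4) * ε := by
        refine (norm_add_le _ _).trans (add_le_add ?_ ?_)
        · rw [norm_mul]
          have h1 : ‖(ε : ℂ)‖ = ε := by simp [abs_of_pos hε]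
          rw [h1]
          exact mul_le_mul_of_nonneg_left hlδ hε.le
        · have := norm_nonneg α
          have h2 : K * δ' * ε ≤ δ / 4 * ε := mul_le_mul_of_nonneg_right hδ'2 hε.le
          linarith
      have h2 := mul_le_mul_of_nonneg_left hc₀n hδ.le
      linarith
    · rw [hfd, hw2, mul_comm (t : ℂ) c₀, cm_add, cm_mul]
      have e1 : c₀ * t * ((ε * l + β) / c₀) = (t : ℂ) * (ε * l + β) := by field_simp
      rw [e1, mul_comm c₀ (t : ℂ), cm_smul, cm_smul, smul_add]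

end Vale.Agent.P247.H264
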