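import Vale.Agent.P247.H264.L4J
import Vale.Agent.P247.H199.Glue0

/-!
# P247, stage 2, S1, package E4: the nonlinear map `K`

`K ξ w = ‖w‖ • K₁ (Jh ξ (w / ‖w‖))`, `K₁ u = m · 𝒜 (T u) · u`: continuity, compactness.
-/

open scoped ContDiff Topology ENNReal NNReal
open Set MeasureTheory Filter Metric

noncomputable section

namespace Vale.Agent.P247.H264

open Vale.Agent.P247.H74 Vale.Agent.P247.H574 Vale.Agent.P247.H957 Vale.Agent.P247.H94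
open Vale.Agent.P247.H199 Vale.Agent.P247.H931.S1 Vale.Agent.P247.H647

/-! ## The product -/

instance holder442 : ENNReal.HolderTriple 4 4 2 := ⟨by
  have h : ((4 : ℝ≥0∞)⁻¹ + 4⁻¹) = 2⁻¹ := by
    rw [← two_mul, show (4 : ℝ≥0∞) = 2 * 2 by norm_num,
      ENNReal.mul_inv (Or.inl two_ne_zero) (Or.inl ENNReal.ofNat_ne_top), ← mul_assoc,
      ENNReal.mul_inv_cancel two_ne_zero ENNReal.ofNat_ne_top, one_mul]
  exact h⟩

/-- `L⁴` vector fields on the cube -/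
abbrev V4 : Type := Lp (Fin 4 → ℝ) 4 mQ

theorem memLp_comp (a : V4) (i : Fin 4) : MemLp (fun x => ((a x i : ℝ) : ℂ)) 4 mQ := by
  refine (Lp.memLp a).of_le ?_ ?_
  · have h1 : AEStronglyMeasurable (fun x => a x i) mQ :=
      (continuous_apply i).comp_aestronglyMeasurable (Lp.aestronglyMeasurable a)
    exact Complex.continuous_ofReal.comp_aestronglyMeasurable h1
  · refine Eventually.of_forall fun x => ?_
    rw [Complex.norm_real]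
    exact norm_le_pi_norm (a x) i

theorem memLp_pr (a : V4) (i : Fin 4) {f : R4 → ℂ} (hf : MemLp f 4 mQ) :
    MemLp (fun x => ((a x i : ℝ) : ℂ) * f x) 2 mQ :=
  MemLp.mul' (p := 4) (q := 4) (r := 2) hf (memLp_comp a i)

open Classical in
/-- the product `aᵢ f` -/
def pr (a : V4) (i : Fin 4) (f : H) : H :=
  if h : MemLp (fun x => ((a x i : ℝ) : ℂ) * f x) 2 mQ then h.toLp _ else 0

theorem pr_ae (a : V4) (i : Fin 4) {f : H} (hf : MemLp f 4 mQ) :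
    pr a i f =ᵐ[mQ] fun x => ((a x i : ℝ) : ℂ) * f x := by
  unfold pr
  rw [dif_pos (memLp_pr a i hf)]
  exact (memLp_pr a i hf).coeFn_toLp

theorem norm_pr_le (a : V4) (i : Fin 4) {f : H} {C : ℝ≥0} (hf : eLpNorm f 4 mQ ≤ C) :
    ‖pr a i f‖ ≤ C * ‖a‖ := by
  have hf4 : MemLp f 4 mQ := ⟨Lp.aestronglyMeasurable f, hf.trans_lt ENNReal.coe_lt_top⟩
  have h1 : eLpNorm (pr a i f) 2 mQ ≤ eLpNorm (fun x => ((a x i : ℝ) : ℂ)) 4 mQ * eLpNorm f 4 mQ := by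
    have h0 := eLpNorm_smul_le_mul_eLpNorm (p := 4) (q := 4) (r := 2) hf4.1 (memLp_comp a i).1
    have e0 : ((fun x => ((a x i : ℝ) : ℂ)) • (f : R4 → ℂ)) =
        fun x => ((a x i : ℝ) : ℂ) * f x := rfl
    rw [e0] at h0
    rw [eLpNorm_congr_ae (pr_ae a i hf4)]
    exact h0
  have h2 : eLpNorm (fun x => ((a x i : ℝ) : ℂ)) 4 mQ ≤ eLpNorm a 4 mQ := by
    refine eLpNorm_mono fun x => ?_
    rw [Complex.norm_real]
    exact norm_le_pi_norm (a x) i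
  have h3 : ‖pr a i f‖ₑ ≤ C * ‖a‖ₑ := by
    rw [Lp.enorm_def, Lp.enorm_def, mul_comm (C : ℝ≥0∞)]
    exact h1.trans (by gcongr)
  have h4 : ENNReal.ofReal ‖pr a i f‖ ≤ ENNReal.ofReal (C * ‖a‖) := by
    rw [ENNReal.ofReal_mul C.coe_nonneg, ofReal_norm, ofReal_norm, ENNReal.ofReal_coe_nnreal]
    exact h3
  exact (ENNReal.ofReal_le_ofReal_iff (by positivity)).1 h4

theorem norm_pr_le_of_bdd (a : V4) (i : Fin 4) {f : H} (hf : MemLp f 4 mQ) {M : ℝ}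
    (hM : ∀ᵐ x ∂mQ, ‖a x‖ ≤ M) : ‖pr a i f‖ ≤ M * ‖f‖ := by
  refine Lp.norm_le_mul_norm_of_ae_le_mul ?_
  filter_upwards [pr_ae a i hf, hM] with x h1 h2
  rw [h1, norm_mul, Complex.norm_real]
  gcongr
  exact (norm_le_pi_norm (a x) i).trans h2

theorem pr_sub_left (a b : V4) (i : Fin 4) {f : H} (hf : MemLp f 4 mQ) :
    pr a i f - pr b i f = pr (a - b) i f := by
  refine Lp.ext ?_
  filter_upwards [pr_ae a i hf, pr_ae b i hf, pr_ae (a - b) i hf, Lp.coeFn_sub a b,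
    Lp.coeFn_sub (pr a i f) (pr b i f)] with x h1 h2 h3 h4 h5
  rw [h5, Pi.sub_apply, h1, h2, h3, h4, Pi.sub_apply, Pi.sub_apply]
  push_cast
  ring

theorem pr_add_left (a b : V4) (i : Fin 4) {f : H} (hf : MemLp f 4 mQ) :
    pr (a + b) i f = pr a i f + pr b i f := by
  refine Lp.ext ?_
  filter_upwards [pr_ae a i hf, pr_ae b i hf, pr_ae (a + b) i hf, Lp.coeFn_add a b,
    Lp.coeFn_add (pr a i f) (pr b i f)] with x h1 h2 h3 h4 h5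
  rw [h5, Pi.add_apply, h1, h2, h3, h4, Pi.add_apply, Pi.add_apply]
  push_cast
  ring

theorem memLp_sub {f g : H} (hf : MemLp f 4 mQ) (hg : MemLp g 4 mQ) : MemLp (f - g : H) 4 mQ :=
  (hf.sub hg).ae_eq (Lp.coeFn_sub f g).symm

theorem pr_sub_right (a : V4) (i : Fin 4) {f g : H} (hf : MemLp f 4 mQ) (hg : MemLp g 4 mQ) :
    pr a i f - pr a i g = pr a i (f - g) := by
  refine Lp.ext ?_
  filter_upwards [pr_ae a i hf, pr_ae a i hg, pr_ae a i (memLp_sub hf hg), Lp.coeFn_sub f g,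
    Lp.coeFn_sub (pr a i f) (pr a i g)] with x h1 h2 h3 h4 h5
  rw [h5, Pi.sub_apply, h1, h2, h3, h4, Pi.sub_apply]
  ring

theorem pr_smul (a : V4) (i : Fin 4) {f : H} (hf : MemLp f 4 mQ) (c : ℂ) :
    pr a i (c • f) = c • pr a i f := by
  have hcf : MemLp (c • f : H) 4 mQ := (hf.const_smul c).ae_eq (Lp.coeFn_smul c f).symm
  refine Lp.ext ?_
  filter_upwards [pr_ae a i hf, pr_ae a i hcf, Lp.coeFn_smul c f,
    Lp.coeFn_smul c (pr a i f)] with x h1 h2 h3 h4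
  rw [h4, Pi.smul_apply, h1, h2, h3, Pi.smul_apply, smul_eq_mul, smul_eq_mul]
  ring

theorem eLpNorm_sub_le' {f g : H} {C : ℝ≥0} (hf : eLpNorm f 4 mQ ≤ C) (hg : eLpNorm g 4 mQ ≤ C) :
    eLpNorm (f - g : H) 4 mQ ≤ (2 * C : ℝ≥0) := by
  rw [eLpNorm_congr_ae (Lp.coeFn_sub f g)]
  refine (eLpNorm_sub_le (Lp.aestronglyMeasurable f) (Lp.aestronglyMeasurable g)
    (by norm_num)).trans ?_
  push_cast
  rw [two_mul]
  gcongr

/-- approximation by bounded fields -/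
theorem exists_bdd_approx (a : V4) {δ : ℝ} (hδ : 0 < δ) : ∃ (b : V4) (M : ℝ), 0 ≤ M ∧
    (∀ᵐ x ∂mQ, ‖b x‖ ≤ M) ∧ ‖a - b‖ < δ := by
  obtain ⟨g, hg, hg4⟩ := (Lp.memLp a).exists_simpleFunc_eLpNorm_sub_lt (by norm_num : (4 : ℝ≥0∞) ≠ ⊤)
    (ε := ENNReal.ofReal δ) (by simpa using hδ)
  obtain ⟨M, hM⟩ := g.exists_forall_norm_le
  refine ⟨hg4.toLp _, M, (norm_nonneg _).trans (hM 0), ?_, ?_⟩
  · filter_upwards [hg4.coeFn_toLp] with x hx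
    rw [hx]
    exact hM x
  · have h1 : ‖a - hg4.toLp _‖ₑ < ENNReal.ofReal δ := by
      rw [Lp.enorm_def]
      refine lt_of_le_of_lt (le_of_eq ?_) hg
      refine eLpNorm_congr_ae ?_
      filter_upwards [Lp.coeFn_sub a (hg4.toLp _), hg4.coeFn_toLp] with x h1 h2
      rw [h1, Pi.sub_apply, h2, Pi.sub_apply]
    rw [← ofReal_norm] at h1
    exact (ENNReal.ofReal_lt_ofReal_iff hδ).1 h1

/-- continuity of the product on sets bounded in `L⁴`, for the `L²` topology -/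
theorem tendsto_pr {X : Type*} {l : Filter X} {a : X → V4} {a₀ : V4} (ha : Tendsto a l (𝓝 a₀))
    {f : X → H} {f₀ : H} (hf : Tendsto f l (𝓝 f₀)) {C : ℝ≥0}
    (hC : ∀ᶠ x in l, eLpNorm (f x) 4 mQ ≤ C) (hC₀ : eLpNorm f₀ 4 mQ ≤ C) (i : Fin 4) :
    Tendsto (fun x => pr (a x) i (f x)) l (𝓝 (pr a₀ i f₀)) := by
  rw [Metric.tendsto_nhds]
  intro ε hε
  set δ : ℝ := ε / (4 * (2 * C + 1)) with hδ
  have hC0 : (0 : ℝ) ≤ C := C.coe_nonneg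
  have hδ0 : 0 < δ := by positivity
  obtain ⟨b, M, hM0, hb, hab⟩ := exists_bdd_approx a₀ hδ0
  have h1 : ∀ᶠ x in l, ‖a x - a₀‖ < δ := by
    have := Metric.tendsto_nhds.1 ha δ hδ0
    simpa [dist_eq_norm] using this
  have h2 : ∀ᶠ x in l, ‖f x - f₀‖ < ε / (4 * (M + 1)) := by
    have := Metric.tendsto_nhds.1 hf (ε / (4 * (M + 1))) (by positivity)
    simpa [dist_eq_norm] using this
  filter_upwards [h1, h2, hC] with x hx1 hx2 hx3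
  have m1 : MemLp (f x) 4 mQ := ⟨Lp.aestronglyMeasurable _, hx3.trans_lt ENNReal.coe_lt_top⟩
  have m0 : MemLp f₀ 4 mQ := ⟨Lp.aestronglyMeasurable _, hC₀.trans_lt ENNReal.coe_lt_top⟩
  have m2 := memLp_sub m1 m0
  have e1 : pr (a x) i (f x) - pr a₀ i f₀ = pr (a x - a₀) i (f x) + pr (a₀ - b) i (f x - f₀) +
      pr b i (f x - f₀) := by
    rw [← pr_sub_left (a x) a₀ i m1, ← pr_sub_left a₀ b i m2, ← pr_sub_right a₀ i m1 m0]
    abel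
  have n1 : ‖pr (a x - a₀) i (f x)‖ ≤ C * δ :=
    (norm_pr_le _ i hx3).trans (by gcongr)
  have n2 : ‖pr (a₀ - b) i (f x - f₀)‖ ≤ (2 * C) * δ := by
    refine (norm_pr_le _ i (eLpNorm_sub_le' hx3 hC₀)).trans ?_
    push_cast
    gcongr
  have n3 : ‖pr b i (f x - f₀)‖ ≤ M * (ε / (4 * (M + 1))) :=
    (norm_pr_le_of_bdd b i m2 hb).trans (by gcongr)
  have n4 : M * (ε / (4 * (M + 1))) ≤ ε / 4 := by
    rw [mul_div_assoc', div_le_div_iff₀ (by positivity) (by norm_num)]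
    nlinarith
  have n5 : C * δ + (2 * C) * δ ≤ 3 / 8 * ε := by
    have : C * δ + (2 * C) * δ = (3 / 8) * (ε * ((2 * C) / (2 * C + 1))) := by
      rw [hδ]; field_simp; ring
    rw [this]
    have h3 : (2 * (C : ℝ)) / (2 * C + 1) ≤ 1 := by
      rw [div_le_one (by positivity)]; linarith
    nlinarith
  rw [dist_eq_norm, e1]
  calc ‖pr (a x - a₀) i (f x) + pr (a₀ - b) i (f x - f₀) + pr b i (f x - f₀)‖
      ≤ ‖pr (a x - a₀) i (f x)‖ + ‖pr (a₀ - b) i (f x - f₀)‖ + ‖pr b i (f x - f₀)‖ :=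
        norm_add₃_le
    _ ≤ C * δ + (2 * C) * δ + ε / 4 := by gcongr; exact n3.trans n4
    _ < ε := by linarith

/-! ## A compact family of operators has a compact common range -/

theorem exists_compact_range {X E F : Type*} [PseudoMetricSpace X] [NormedAddCommGroup E]
    [NormedSpace ℂ E] [NormedAddCommGroup F] [NormedSpace ℂ F] [CompleteSpace F]
    {T : X → E →L[ℂ] F} (hT : Continuous T) {S : Set X} (hS : IsCompact S)
    (hc : ∀ ξ, IsCompactOperator (T ξ)) :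
    ∃ V : Set F, IsCompact V ∧ ∀ ξ ∈ S, ∀ w, ‖w‖ ≤ 1 → T ξ w ∈ V := by
  set s : Set F := {y | ∃ ξ ∈ S, ∃ w, ‖w‖ ≤ 1 ∧ T ξ w = y} with hs
  have htb : TotallyBounded s := by
    rw [Metric.totallyBounded_iff]
    intro ε hε
    obtain ⟨t, htS, ht⟩ := hS.elim_nhds_subcover (fun ξ => T ⁻¹' ball (T ξ) (ε / 2))
      fun ξ _ => (hT.continuousAt).preimage_mem_nhds (ball_mem_nhds _ (half_pos hε))
    have h1 : ∀ ξ, ∃ u : Set F, u.Finite ∧ T ξ '' closedBall 0 1 ⊆ ⋃ y ∈ u, ball y (ε / 2) := by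
      intro ξ
      have h2 : IsCompact (closure (T ξ '' closedBall 0 1)) :=
        (hc ξ).isCompact_closure_image_closedBall 1
      have h3 := (h2.totallyBounded.subset subset_closure)
      exact Metric.totallyBounded_iff.1 h3 _ (half_pos hε)
    choose u hu hu' using h1
    refine ⟨⋃ ξ ∈ t, u ξ, t.finite_toSet.biUnion fun ξ _ => hu ξ, ?_⟩
    rintro y ⟨ξ, hξ, w, hw, rfl⟩
    obtain ⟨ξ', hξ', h4⟩ := mem_iUnion₂.1 (ht hξ)
    have h5 : T ξ' w ∈ ⋃ y ∈ u ξ', ball y (ε / 2) :=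
      hu' ξ' ⟨w, by simpa using hw, rfl⟩
    obtain ⟨z, hz, h6⟩ := mem_iUnion₂.1 h5
    refine mem_iUnion₂.2 ⟨z, mem_iUnion₂.2 ⟨ξ', hξ', hz⟩, ?_⟩
    have h7 : ‖T ξ w - T ξ' w‖ < ε / 2 := by
      have h8 : ‖T ξ - T ξ'‖ < ε / 2 := by
        have : T ξ ∈ ball (T ξ') (ε / 2) := h4
        rwa [mem_ball_iff_norm] at this
      calc ‖T ξ w - T ξ' w‖ = ‖(T ξ - T ξ') w‖ := by simp
        _ ≤ ‖T ξ - T ξ'‖ * ‖w‖ := (T ξ - T ξ').le_opNorm w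
        _ ≤ ‖T ξ - T ξ'‖ * 1 := by gcongr
        _ < ε / 2 := by linarith
    rw [mem_ball_iff_norm] at h6 ⊢
    calc ‖T ξ w - z‖ = ‖(T ξ w - T ξ' w) + (T ξ' w - z)‖ := by congr 1; abel
      _ ≤ ‖T ξ w - T ξ' w‖ + ‖T ξ' w - z‖ := norm_add_le _ _
      _ < ε := by linarith
  refine ⟨closure s, ?_, fun ξ hξ w hw => subset_closure ⟨ξ, hξ, w, hw, rfl⟩⟩
  exact htb.closure.isCompact_of_isClosed isClosed_closure

/-! ## The `L⁴` bound for the periodic model -/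

theorem exists_red (ξ : ℝ × ℝ) : ∃ (m n : ℤ) (ξ' : ℝ × ℝ), ξ' ∈ closedBall (0 : ℝ × ℝ) 1 ∧
    ξ = ξ' + ((m : ℝ), (n : ℝ)) := by
  refine ⟨⌊ξ.1⌋, ⌊ξ.2⌋, (Int.fract ξ.1, Int.fract ξ.2), ?_, ?_⟩
  · rw [mem_closedBall_zero_iff, Prod.norm_def]
    refine max_le ?_ ?_ <;> rw [Real.norm_eq_abs, abs_of_nonneg (Int.fract_nonneg _)] <;>
      exact (Int.fract_lt_one _).le
  · exact Prod.ext (Int.fract_add_floor ξ.1).symm (Int.fract_add_floor ξ.2).symm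

theorem eLpNorm_Jh (J : ℝ × ℝ → H →L[ℂ] H) (ξ : ℝ × ℝ) (w : H) :
    eLpNorm (Jh J ξ w) 4 mQ = eLpNorm (J ξ (Vop (-ξ) w)) 4 mQ := by
  refine eLpNorm_congr_norm_ae ?_
  filter_upwards [mulOp_ae (continuous_vx ξ) (J ξ (Vop (-ξ) w))] with x hx
  have h1 : Jh J ξ w = mulOp (vx ξ) (J ξ (Vop (-ξ) w)) := rfl
  rw [h1, hx, norm_mul, norm_vx, one_mul]

theorem L4_Jh {J : ℝ × ℝ → H →L[ℂ] H} {G : ℝ × ℝ → Fin 4 → H →L[ℂ] H} (hF : Fl J G) :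
    ∃ C : ℝ≥0, ∀ (ξ : ℝ × ℝ) (w : H), eLpNorm (Jh J ξ w) 4 mQ ≤ C * ‖w‖ₑ := by
  obtain ⟨C, hC⟩ := L4_bound hF 1
  refine ⟨C, fun ξ w => ?_⟩
  obtain ⟨m, n, ξ', hξ', rfl⟩ := exists_red ξ
  rw [Jh_per hF, eLpNorm_Jh]
  refine (hC ξ' (by simpa using hξ') _).trans (le_of_eq ?_)
  rw [← ofReal_norm, norm_Vop, ofReal_norm]

theorem isClosed_L4 (C : ℝ≥0) : IsClosed {f : H | eLpNorm f 4 mQ ≤ C} := by
  refine IsSeqClosed.isClosed fun f g hf hfg => ?_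
  exact le_of_tendsto_Lp hfg (c := fun _ => (C : ℝ≥0∞)) tendsto_const_nhds hf

/-- a compact set, bounded in `L⁴`, which contains the images of the unit ball -/
theorem range_Jh {J : ℝ × ℝ → H →L[ℂ] H} {G : ℝ × ℝ → Fin 4 → H →L[ℂ] H} (hF : Fl J G) :
    ∃ (V : Set H) (C : ℝ≥0), IsCompact V ∧ (∀ f ∈ V, eLpNorm f 4 mQ ≤ C) ∧
      ∀ (ξ : ℝ × ℝ) (w : H), ‖w‖ ≤ 1 → Jh J ξ w ∈ V := by
  obtain ⟨C, hC⟩ := L4_Jh hF
  obtain ⟨V, hV, hV'⟩ := exists_compact_range (continuous_Jh hF)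
    (isCompact_closedBall (0 : ℝ × ℝ) 1) (compact_Jh hF)
  refine ⟨V ∩ {f : H | eLpNorm f 4 mQ ≤ C}, C, hV.inter_right (isClosed_L4 C),
    fun f hf => hf.2, fun ξ w hw => ⟨?_, ?_⟩⟩
  · obtain ⟨m, n, ξ', hξ', rfl⟩ := exists_red ξ
    rw [Jh_per hF]
    exact hV' ξ' hξ' w hw
  · refine (hC ξ w).trans ?_
    have h1 : ‖w‖ₑ ≤ 1 := by
      rw [← ofReal_norm, ← ENNReal.ofReal_one]
      exact ENNReal.ofReal_le_ofReal hw
    calc (C : ℝ≥0∞) * ‖w‖ₑ ≤ C * 1 := by gcongr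
      _ = C := mul_one _

/-! ## The map on the compact set -/

/-- coefficients -/
abbrev Cof : Type := Fin 4 → Fin 2 → Fin 2 → R4 → ℂ

/-- `K₁ u = m · 𝒜 (T u) · u` -/
def K1 (m : Cof) (𝒜 : HH → V4) (T : ℝ) (u : HH) : HH :=
  WithLp.toLp 2 fun c => ∑ i, ∑ d, mulOp (m i c d) (pr (𝒜 ((T : ℂ) • u)) i (u d))

/-- the fields with components in `V` -/
def VV (V : Set H) : Set HH := {u : HH | ∀ d, u d ∈ V}

theorem isCompact_VV {V : Set H} (hV : IsCompact V) : IsCompact (VV V) := by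
  have h1 : IsCompact (Set.pi univ fun _ : Fin 2 => V) := isCompact_univ_pi fun _ => hV
  have h2 : VV V = (WithLp.toLp 2 : (Fin 2 → H) → HH) '' (Set.pi univ fun _ : Fin 2 => V) := by
    ext u
    constructor
    · intro hu
      exact ⟨fun d => u d, fun d _ => hu d, rfl⟩
    · rintro ⟨f, hf, rfl⟩ d
      exact hf d (mem_univ d)
  rw [h2]
  exact h1.image (PiLp.continuous_toLp 2 _)

theorem continuousOn_K1 (m : Cof) {𝒜 : HH → V4} (h𝒜 : Continuous 𝒜) (T : ℝ) {V : Set H} {C : ℝ≥0}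
    (hV : ∀ f ∈ V, eLpNorm f 4 mQ ≤ C) : ContinuousOn (K1 m 𝒜 T) (VV V) := by
  intro u hu
  have h1 : Tendsto (fun v : HH => 𝒜 ((T : ℂ) • v)) (𝓝[VV V] u) (𝓝 (𝒜 ((T : ℂ) • u))) :=
    ((h𝒜.comp (continuous_const_smul _)).tendsto u).mono_left nhdsWithin_le_nhds
  have h2 : ∀ d, Tendsto (fun v : HH => v d) (𝓝[VV V] u) (𝓝 (u d)) := fun d =>
    ((PiLp.continuous_apply 2 _ d).tendsto u).mono_left nhdsWithin_le_nhds
  have h3 : ∀ d, ∀ᶠ v : HH in 𝓝[VV V] u, eLpNorm (v d) 4 mQ ≤ C := fun d => by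
    filter_upwards [self_mem_nhdsWithin] with v hv
    exact hV _ (hv d)
  refine ((PiLp.continuous_toLp 2 _).tendsto _).comp (tendsto_pi_nhds.2 fun c => ?_)
  refine tendsto_finsetSum _ fun i _ => tendsto_finsetSum _ fun d _ => ?_
  exact ((mulOp (m i c d)).continuous.tendsto _).comp
    (tendsto_pr h1 (h2 d) (h3 d) (hV _ (hu d)) i)

/-- `Jh` on two-component fields -/
def jj (J : ℝ × ℝ → H →L[ℂ] H) (ξ : ℝ × ℝ) (w : HH) : HH :=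
  WithLp.toLp 2 fun d => Jh J ξ (w d)

theorem jj_apply (J : ℝ × ℝ → H →L[ℂ] H) (ξ : ℝ × ℝ) (w : HH) (d : Fin 2) :
    jj J ξ w d = Jh J ξ (w d) := rfl

theorem jj_smul (J : ℝ × ℝ → H →L[ℂ] H) (ξ : ℝ × ℝ) (c : ℂ) (w : HH) :
    jj J ξ (c • w) = c • jj J ξ w := by
  ext1 d
  rw [jj_apply, PiLp.smul_apply, PiLp.smul_apply, map_smul, jj_apply]

theorem continuous_jj {J : ℝ × ℝ → H →L[ℂ] H} {G : ℝ × ℝ → Fin 4 → H →L[ℂ] H} (hF : Fl J G) :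
    Continuous fun p : (ℝ × ℝ) × HH => jj J p.1 p.2 := by
  refine (PiLp.continuous_toLp 2 _).comp (continuous_pi fun d => ?_)
  exact ((continuous_Jh hF).comp continuous_fst).clm_apply
    ((PiLp.continuous_apply 2 _ d).comp continuous_snd)

/-- the nonlinear map -/
def KK (m : Cof) (𝒜 : HH → V4) (T : ℝ) (J : ℝ × ℝ → H →L[ℂ] H) (ξ : ℝ × ℝ) (w : HH) : HH :=
  (‖w‖ : ℂ) • K1 m 𝒜 T (jj J ξ ((‖w‖ : ℂ)⁻¹ • w))

theorem norm_normalize_le (w : HH) : ‖(‖w‖ : ℂ)⁻¹ • w‖ ≤ 1 := by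
  rw [norm_smul, norm_inv, Complex.norm_real, norm_norm]
  rcases eq_or_ne w 0 with rfl | hw
  · simp
  · rw [inv_mul_cancel₀ (norm_ne_zero_iff.2 hw)]

theorem K1_smul (m : Cof) {𝒜 : HH → V4} (T : ℝ) {V : Set H} {C : ℝ≥0}
    (hV : ∀ f ∈ V, eLpNorm f 4 mQ ≤ C) (hph : ∀ (c : ℂ) (u : HH), ‖c‖ = 1 → 𝒜 (c • u) = 𝒜 u)
    {c : ℂ} (hc : ‖c‖ = 1) {u : HH} (hu : u ∈ VV V) :
    K1 m 𝒜 T (c • u) = c • K1 m 𝒜 T u := by
  have h1 : 𝒜 ((T : ℂ) • c • u) = 𝒜 ((T : ℂ) • u) := by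
    rw [smul_comm, hph _ _ hc]
  have h2 : ∀ d, MemLp (u d) 4 mQ := fun d =>
    ⟨Lp.aestronglyMeasurable _, (hV _ (hu d)).trans_lt ENNReal.coe_lt_top⟩
  ext1 e
  rw [PiLp.smul_apply]
  change ∑ i, ∑ d, mulOp (m i e d) (pr (𝒜 ((T : ℂ) • c • u)) i ((c • u) d)) =
    c • ∑ i, ∑ d, mulOp (m i e d) (pr (𝒜 ((T : ℂ) • u)) i (u d))
  rw [h1, Finset.smul_sum]
  refine Finset.sum_congr rfl fun i _ => ?_
  rw [Finset.smul_sum]
  refine Finset.sum_congr rfl fun d _ => ?_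
  rw [PiLp.smul_apply, pr_smul _ i (h2 d), map_smul]

/-- the map `K`: all the properties needed by the Fredholm Borsuk-Ulam theorem -/
theorem KK_main {J : ℝ × ℝ → H →L[ℂ] H} {G : ℝ × ℝ → Fin 4 → H →L[ℂ] H} (hF : Fl J G)
    (m : Cof) {𝒜 : HH → V4} (h𝒜 : Continuous 𝒜)
    (hph : ∀ (c : ℂ) (u : HH), ‖c‖ = 1 → 𝒜 (c • u) = 𝒜 u) (T : ℝ) :
    (Continuous fun p : (ℝ × ℝ) × HH => KK m 𝒜 T J p.1 p.2) ∧
    (∀ (ξ : ℝ × ℝ) (k l : ℤ), KK m 𝒜 T J (ξ + ((k : ℝ), (l : ℝ))) = KK m 𝒜 T J ξ) ∧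
    (∀ (ξ : ℝ × ℝ) (a : ℂ) (w : HH), KK m 𝒜 T J ξ (a • w) = a • KK m 𝒜 T J ξ w) ∧
    ∀ R : ℝ, ∃ S : Set HH, IsCompact S ∧ ∀ (ξ : ℝ × ℝ) (w : HH), ‖w‖ ≤ R → KK m 𝒜 T J ξ w ∈ S := by
  obtain ⟨V, C, hV, hV4, hVJ⟩ := range_Jh hF
  have hmem : ∀ (ξ : ℝ × ℝ) (w : HH), ‖w‖ ≤ 1 → jj J ξ w ∈ VV V := fun ξ w hw d =>
    hVJ ξ (w d) ((PiLp.norm_apply_le w d).trans hw)
  have hK1 := continuousOn_K1 m h𝒜 T hV4
  have hcpt : IsCompact (K1 m 𝒜 T '' VV V) := (isCompact_VV hV).image_of_continuousOn hK1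
  obtain ⟨M, hM⟩ := hcpt.isBounded.exists_norm_le
  have hM' : ∀ (ξ : ℝ × ℝ) (w : HH), ‖KK m 𝒜 T J ξ w‖ ≤ M * ‖w‖ := by
    intro ξ w
    rw [KK, norm_smul, Complex.norm_real, norm_norm, mul_comm]
    gcongr
    exact hM _ ⟨_, hmem ξ _ (norm_normalize_le w), rfl⟩
  refine ⟨?_, ?_, ?_, ?_⟩
  · rw [continuous_iff_continuousAt]
    rintro ⟨ξ₀, w₀⟩
    rcases eq_or_ne w₀ 0 with rfl | hw₀
    · have h0 : KK m 𝒜 T J ξ₀ 0 = 0 := by
        have := hM' ξ₀ 0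
        rw [norm_zero, mul_zero] at this
        exact norm_le_zero_iff.1 this
      rw [ContinuousAt]
      simp only [h0]
      refine squeeze_zero_norm (a := fun p : (ℝ × ℝ) × HH => M * ‖p.2‖)
        (fun p => hM' p.1 p.2) ?_
      have : Tendsto (fun p : (ℝ × ℝ) × HH => M * ‖p.2‖) (𝓝 (ξ₀, 0)) (𝓝 (M * ‖(0 : HH)‖)) :=
        (continuous_const.mul (continuous_norm.comp continuous_snd)).tendsto _
      simpa using this
    · have hne : ((‖w₀‖ : ℝ) : ℂ) ≠ 0 := by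
        exact_mod_cast norm_ne_zero_iff.2 hw₀
      have c1 : ContinuousAt (fun p : (ℝ × ℝ) × HH => ((‖p.2‖ : ℝ) : ℂ)) (ξ₀, w₀) :=
        (Complex.continuous_ofReal.comp (continuous_norm.comp continuous_snd)).continuousAt
      have c2 : ContinuousAt (fun p : (ℝ × ℝ) × HH => (p.1, ((‖p.2‖ : ℝ) : ℂ)⁻¹ • p.2)) (ξ₀, w₀) :=
        continuousAt_fst.prodMk ((c1.inv₀ hne).smul continuousAt_snd)
      have c3 : ContinuousAt (fun p : (ℝ × ℝ) × HH => jj J p.1 (((‖p.2‖ : ℝ) : ℂ)⁻¹ • p.2))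
          (ξ₀, w₀) :=
        (continuous_jj hF).continuousAt.comp
          (f := fun p : (ℝ × ℝ) × HH => (p.1, ((‖p.2‖ : ℝ) : ℂ)⁻¹ • p.2)) c2
      have c4 : Tendsto (fun p : (ℝ × ℝ) × HH => jj J p.1 (((‖p.2‖ : ℝ) : ℂ)⁻¹ • p.2))
          (𝓝 (ξ₀, w₀)) (𝓝[VV V] (jj J ξ₀ (((‖w₀‖ : ℝ) : ℂ)⁻¹ • w₀))) :=
        tendsto_nhdsWithin_iff.2 ⟨c3, Eventually.of_forall fun p =>
          hmem p.1 _ (norm_normalize_le p.2)⟩
      have c5 := (hK1 _ (hmem ξ₀ _ (norm_normalize_le w₀))).tendsto.comp c4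
      exact c1.smul c5
  · intro ξ k l
    funext w
    have h1 : jj J (ξ + ((k : ℝ), (l : ℝ))) = jj J ξ := by
      funext w
      unfold jj
      rw [Jh_per hF]
    rw [KK, KK, h1]
  · intro ξ a w
    rcases eq_or_ne a 0 with rfl | ha
    · rw [zero_smul, zero_smul]
      have := hM' ξ 0
      rw [norm_zero, mul_zero] at this
      exact norm_le_zero_iff.1 this
    · have hna : ((‖a‖ : ℝ) : ℂ) ≠ 0 := by exact_mod_cast norm_ne_zero_iff.2 ha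
      set c : ℂ := a * ((‖a‖ : ℝ) : ℂ)⁻¹ with hc
      have hc1 : ‖c‖ = 1 := by
        rw [hc, norm_mul, norm_inv, Complex.norm_real, norm_norm,
          mul_inv_cancel₀ (norm_ne_zero_iff.2 ha)]
      have h1 : ((‖a • w‖ : ℝ) : ℂ)⁻¹ • (a • w) = c • (((‖w‖ : ℝ) : ℂ)⁻¹ • w) := by
        rw [norm_smul, smul_smul, smul_smul]
        congr 1
        push_cast
        rw [mul_inv, hc]
        ring
      rw [KK, KK, h1, jj_smul, K1_smul m T hV4 hph hc1 (hmem ξ _ (norm_normalize_le w)),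
        smul_smul, smul_smul]
      congr 1
      rw [norm_smul, hc]
      push_cast
      field_simp
  · intro R
    refine ⟨(fun p : ℝ × HH => ((p.1 : ℝ) : ℂ) • p.2) '' (Icc 0 R ×ˢ (K1 m 𝒜 T '' VV V)), ?_, ?_⟩
    · refine (isCompact_Icc.prod hcpt).image ?_
      exact (Complex.continuous_ofReal.comp continuous_fst).smul continuous_snd
    · intro ξ w hw
      exact ⟨(‖w‖, K1 m 𝒜 T (jj J ξ (((‖w‖ : ℝ) : ℂ)⁻¹ • w))), ⟨⟨norm_nonneg _, hw⟩,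
        ⟨_, hmem ξ _ (norm_normalize_le w), rfl⟩⟩, rfl⟩

theorem memLp_Jh {J : ℝ × ℝ → H →L[ℂ] H} {G : ℝ × ℝ → Fin 4 → H →L[ℂ] H} (hF : Fl J G)
    (ξ : ℝ × ℝ) (w : H) : MemLp (Jh J ξ w) 4 mQ := by
  obtain ⟨C, hC⟩ := L4_Jh hF
  exact ⟨Lp.aestronglyMeasurable _, (hC ξ w).trans_lt
    (ENNReal.mul_lt_top ENNReal.coe_lt_top enorm_lt_top)⟩

/-- on the sphere of radius `T` the map `K` is the product with `𝒜 (Jh w)` -/
theorem KK_eq {J : ℝ × ℝ → H →L[ℂ] H} {G : ℝ × ℝ → Fin 4 → H →L[ℂ] H} (hF : Fl J G)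
    (m : Cof) (𝒜 : HH → V4) {T : ℝ} (hT : 0 < T) (ξ : ℝ × ℝ) {w : HH} (hw : ‖w‖ = T) (c : Fin 2) :
    KK m 𝒜 T J ξ w c = ∑ i, ∑ d, mulOp (m i c d) (pr (𝒜 (jj J ξ w)) i (Jh J ξ (w d))) := by
  have hT' : (T : ℂ) ≠ 0 := by exact_mod_cast hT.ne'
  have h1 : (T : ℂ) • jj J ξ ((T : ℂ)⁻¹ • w) = jj J ξ w := by
    rw [← jj_smul, smul_smul, mul_inv_cancel₀ hT', one_smul]
  have h2 : KK m 𝒜 T J ξ w c = (T : ℂ) • ∑ i, ∑ d, mulOp (m i c d)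
      (pr (𝒜 ((T : ℂ) • jj J ξ ((T : ℂ)⁻¹ • w))) i (jj J ξ ((T : ℂ)⁻¹ • w) d)) := by
    rw [KK, hw]
    rfl
  rw [h2, h1, Finset.smul_sum]
  refine Finset.sum_congr rfl fun i _ => ?_
  rw [Finset.smul_sum]
  refine Finset.sum_congr rfl fun d _ => ?_
  rw [jj_smul, PiLp.smul_apply, jj_apply, pr_smul _ i (memLp_Jh hF ξ (w d)), map_smul, smul_smul,
    mul_inv_cancel₀ hT', one_smul]

theorem KK_ae {J : ℝ × ℝ → H →L[ℂ] H} {G : ℝ × ℝ → Fin 4 → H →L[ℂ] H} (hF : Fl J G)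
    {m : Cof} (hm : ∀ i c d, Continuous (m i c d)) (𝒜 : HH → V4) {T : ℝ} (hT : 0 < T)
    (ξ : ℝ × ℝ) {w : HH} (hw : ‖w‖ = T) (c : Fin 2) :
    KK m 𝒜 T J ξ w c =ᵐ[mQ] fun x => ∑ i, ∑ d, m i c d x *
      (((𝒜 (jj J ξ w) x i : ℝ) : ℂ) * Jh J ξ (w d) x) := by
  rw [KK_eq hF m 𝒜 hT ξ hw c]
  exact rep_sum Finset.univ fun i _ => rep_sum Finset.univ fun d _ =>
    rep_mulOp (hm i c d) (pr_ae _ i (memLp_Jh hF ξ (w d)))

end Vale.Agent.P247.H264
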