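import Vale.Agent.P247.H574.Sta2

/-!
# Elementary facts on the space `F2` of bilinear forms and on test forms

Instance search on `R4 →L[ℝ] R4 →L[ℝ] ℝ` is fragile; these lemmas avoid it.
-/

open scoped ContDiff Topology
open Set MeasureTheory Filter Metric

noncomputable section

namespace Vale.Agent.P247.H264

open Vale.Agent.P247.H74 Vale.Agent.P247.H574

theorem tA : IsTopologicalAddGroup F2 := inferInstance

theorem ext_F2 {f g : F2} (h : ∀ u v, f u v = g u v) : f = g :=
  ContinuousLinearMap.ext fun u => ContinuousLinearMap.ext fun v => h u v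

theorem zero_F2 (u v : R4) : (0 : F2) u v = 0 := rfl
theorem add_F2 (f g : F2) (u v : R4) : (f + g) u v = f u v + g u v := rfl
theorem sub_F2 (f g : F2) (u v : R4) : (f - g) u v = f u v - g u v := rfl
theorem neg_F2 (f : F2) (u v : R4) : (-f) u v = -f u v := rfl
theorem smul_F2 (c : ℝ) (f : F2) (u v : R4) : (c • f) u v = c * f u v := rfl

theorem continuous_norm_F2 : Continuous (fun f : F2 => ‖f‖) := by
  have h := @continuous_norm F2 _
  exact h

theorem continuous_add_F2 {X : Type*} [TopologicalSpace X] {f g : X → F2} (hf : Continuous f)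
    (hg : Continuous g) : Continuous fun x => f x + g x := by
  have := tA.toContinuousAdd
  exact hf.add hg

theorem continuous_neg_F2 {X : Type*} [TopologicalSpace X] {f : X → F2} (hf : Continuous f) :
    Continuous fun x => -f x := by
  have := tA.toContinuousNeg
  exact hf.neg

theorem continuous_sub_F2 {X : Type*} [TopologicalSpace X] {f g : X → F2} (hf : Continuous f)
    (hg : Continuous g) : Continuous fun x => f x - g x := by
  have h := continuous_add_F2 hf (continuous_neg_F2 hg)
  refine h.congr (fun x => ext_F2 fun u v => ?_)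
  rw [add_F2, neg_F2, sub_F2, sub_eq_add_neg]

theorem continuous_smul_F2 {X : Type*} [TopologicalSpace X] {c : X → ℝ} {f : X → F2}
    (hc : Continuous c) (hf : Continuous f) : Continuous fun x => c x • f x := hc.smul hf

theorem continuous_flip_F2 : Continuous (fun f : F2 => (ContinuousLinearMap.flip f : F2)) := by
  have h := (ContinuousLinearMap.flipₗᵢ ℝ R4 R4 ℝ).continuous
  exact h

theorem continuous_apply_F2 {X : Type*} [TopologicalSpace X] {f : X → F2} {u v : X → R4}
    (hf : Continuous f) (hu : Continuous u) (hv : Continuous v) : Continuous fun x => f x (u x) (v x) :=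
  (hf.clm_apply hu).clm_apply hv

/-- supports -/
theorem hcs_of_subset {X β γ : Type*} [TopologicalSpace X] [Zero β] [Zero γ] {f : X → β} {g : X → γ}
    (hf : HasCompactSupport f) (h : ∀ x, f x = 0 → g x = 0) : HasCompactSupport g :=
  HasCompactSupport.mono' hf (fun x hx => subset_tsupport f (fun h0 => hx (h x h0)))

theorem hcs_add {f g : R4 → F2} (hf : HasCompactSupport f) (hg : HasCompactSupport g) :
    HasCompactSupport (f + g) := by
  refine IsCompact.of_isClosed_subset (hf.isCompact.union hg.isCompact) isClosed_closure ?_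
  refine closure_minimal (fun x hx => ?_) ((isClosed_tsupport f).union (isClosed_tsupport g))
  by_contra h
  rw [mem_union, not_or] at h
  refine hx (ext_F2 fun u v => ?_)
  show f x u v + g x u v = 0
  rw [image_eq_zero_of_notMem_tsupport h.1, image_eq_zero_of_notMem_tsupport h.2, zero_F2, add_zero]

theorem CF.smul' {φ : R4 → F2} (h : CF φ) (c : ℝ) : CF (c • φ) :=
  ⟨continuous_smul_F2 continuous_const h.cont, hcs_of_subset h.supp (fun x hx => ext_F2 fun u v => by
    show c * φ x u v = 0
    rw [hx, zero_F2, mul_zero]), fun x u => by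
    show c * φ x u u = 0
    rw [h.alt x u, mul_zero]⟩

theorem CF.add' {φ ψ : R4 → F2} (h : CF φ) (h' : CF ψ) : CF (φ + ψ) :=
  ⟨continuous_add_F2 h.cont h'.cont, hcs_add h.supp h'.supp, fun x u => by
    show φ x u u + ψ x u u = 0
    rw [h.alt x u, h'.alt x u, add_zero]⟩

theorem CF.neg' {φ : R4 → F2} (h : CF φ) : CF (-φ) :=
  ⟨continuous_neg_F2 h.cont, hcs_of_subset h.supp (fun x hx => ext_F2 fun u v => by
    show -φ x u v = 0
    rw [hx, zero_F2, neg_zero]), fun x u => by
    show -φ x u u = 0
    rw [h.alt x u, neg_zero]⟩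

theorem CF.mul {φ : R4 → F2} (h : CF φ) {f : R4 → ℝ} (hf : Continuous f) :
    CF (fun x => f x • φ x) :=
  ⟨continuous_smul_F2 hf h.cont, hcs_of_subset h.supp (fun x hx => ext_F2 fun u v => by
    show f x * φ x u v = 0
    rw [hx, zero_F2, mul_zero]), fun x u => by
    show f x * φ x u u = 0
    rw [h.alt x u, mul_zero]⟩

theorem CF.norm_cont {φ : R4 → F2} (h : CF φ) : Continuous fun x => ‖φ x‖ :=
  continuous_norm_F2.comp h.cont

theorem CF.norm_supp {φ : R4 → F2} (h : CF φ) : HasCompactSupport fun x => ‖φ x‖ :=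
  hcs_of_subset h.supp (fun x hx => by
    rw [hx]
    exact @norm_zero F2 _)

theorem ICur.zero {D : Data} (S : ICur D) : S.T 0 = 0 := by
  have h : CF (0 : R4 → F2) := ⟨continuous_const, HasCompactSupport.zero, fun x u => rfl⟩
  have h1 := S.smul 0 0 h
  have e : (0 : ℝ) • (0 : R4 → F2) = 0 := by
    funext x
    exact ext_F2 fun u v => by show (0 : ℝ) * 0 = 0; ring
  rw [e, zero_mul] at h1
  exact h1

theorem ICur.neg {D : Data} (S : ICur D) {φ : R4 → F2} (h : CF φ) : S.T (-φ) = -S.T φ := by
  have := S.smul (-1) φ h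
  have e : (-1 : ℝ) • φ = -φ := by
    funext x
    exact ext_F2 fun u v => by show (-1 : ℝ) * φ x u v = -φ x u v; ring
  rw [e] at this
  rw [this]; ring

theorem ICur.sub {D : Data} (S : ICur D) {φ ψ : R4 → F2} (h : CF φ) (h' : CF ψ) :
    S.T (φ - ψ) = S.T φ - S.T ψ := by
  have e : φ - ψ = φ + (-ψ) := by
    funext x
    exact ext_F2 fun u v => by show φ x u v - ψ x u v = φ x u v + -ψ x u v; ring
  rw [e, S.add _ _ h (CF.neg' h'), ICur.neg S h', sub_eq_add_neg]

end Vale.Agent.P247.H264
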