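import Mathlib.Analysis.FunctionalSpaces.SobolevInequality
import Vale.Agent.P247.H94.E1
import Vale.Agent.P247.H957.Fl1
import Vale.Agent.P247.H931.S1.Sta

/-!
# P247, stage 2, S1, package E4: the `L⁴` bound

* `gns_cube`: the Gagliardo-Nirenberg-Sobolev inequality on the unit cube, for smooth functions
  with periodic size.
* `L4J`: `‖J ξ w‖_{L⁴} ≤ C ‖w‖` for the resolvent `J ξ` of the flat model.
-/

open scoped ContDiff Topology ENNReal NNReal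
open Set MeasureTheory Filter Metric

noncomputable section

namespace Vale.Agent.P247.H264

open Vale.Agent.P247.H74 Vale.Agent.P247.H574 Vale.Agent.P247.H957

/-! ## Covering by cubes -/

/-- the lattice vectors whose cubes cover the ball of radius two -/
def Kk : Finset (Fin 4 → ℤ) := Fintype.piFinset fun _ => Finset.Icc (-2) 2

theorem cover_Kk : closedBall (0 : R4) 2 ⊆ ⋃ k ∈ Kk, tr k '' Icc (0 : R4) 1 := by
  intro x hx
  have hx' : ∀ i, |x i| ≤ 2 := by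
    intro i
    have h1 := norm_le_pi_norm x i
    rw [mem_closedBall_zero_iff] at hx
    rw [Real.norm_eq_abs] at h1
    linarith
  simp only [mem_iUnion]
  refine ⟨fun i => ⌊x i⌋, ?_, fun i => x i - ⌊x i⌋, ⟨?_, ?_⟩, ?_⟩
  · rw [Kk, Fintype.mem_piFinset]
    intro i
    have h := abs_le.1 (hx' i)
    rw [Finset.mem_Icc]
    constructor
    · rw [Int.le_floor]; push_cast; linarith
    · have : (⌊x i⌋ : ℝ) ≤ 2 := (Int.floor_le _).trans h.2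
      exact_mod_cast this
  · intro i
    have := Int.floor_le (x i)
    simp only [Pi.zero_apply]
    linarith
  · intro i
    have := Int.lt_floor_add_one (x i)
    simp only [Pi.one_apply]
    linarith
  · funext i
    simp [tr]

theorem tr_eq_add (k : Fin 4 → ℤ) : tr k = fun x : R4 => x + fun i => (k i : ℝ) := by
  funext x i
  simp [tr]

theorem setLIntegral_tr (k : Fin 4 → ℤ) (g : R4 → ℝ≥0∞) (s : Set R4) :
    ∫⁻ x in tr k '' s, g x = ∫⁻ x in s, g (tr k x) := by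
  have h1 : MeasurePreserving (tr k) (volume : Measure R4) volume := by
    rw [tr_eq_add]
    exact measurePreserving_add_right volume _
  have h2 : MeasurableEmbedding (tr k) := by
    rw [tr_eq_add]
    exact (MeasurableEquiv.addRight (fun i => (k i : ℝ))).measurableEmbedding
  rw [← h1.setLIntegral_comp_emb h2]

theorem lint_ball_le {g : R4 → ℝ≥0∞} (hg : ∀ (k : Fin 4 → ℤ) x, g (tr k x) = g x) :
    ∫⁻ x in closedBall (0 : R4) 2, g x ≤ (Kk.card : ℝ≥0∞) * ∫⁻ x, g x ∂mQ := by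
  calc ∫⁻ x in closedBall (0 : R4) 2, g x
      ≤ ∫⁻ x in ⋃ k ∈ Kk, tr k '' Icc (0 : R4) 1, g x := lintegral_mono_set cover_Kk
    _ ≤ ∑ k ∈ Kk, ∫⁻ x in tr k '' Icc (0 : R4) 1, g x := by
        have h1 : (⋃ k ∈ Kk, tr k '' Icc (0 : R4) 1) = ⋃ k : Kk, tr (k : Fin 4 → ℤ) '' Icc (0 : R4) 1 := by
          rw [iUnion_subtype]
        rw [h1]
        refine (lintegral_iUnion_le _ _).trans ?_
        rw [tsum_fintype, ← Finset.sum_coe_sort Kk (fun k => ∫⁻ x in tr k '' Icc (0 : R4) 1, g x)]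
    _ = ∑ k ∈ Kk, ∫⁻ x, g x ∂mQ := by
        refine Finset.sum_congr rfl fun k _ => ?_
        rw [setLIntegral_tr]
        simp only [hg]
    _ = (Kk.card : ℝ≥0∞) * ∫⁻ x, g x ∂mQ := by
        rw [Finset.sum_const, nsmul_eq_mul]

/-! ## GNS -/

/-- a cut-off, `1` on the unit ball, supported in the ball of radius two -/
def cut : ContDiffBump (0 : R4) := ⟨1, 2, one_pos, one_lt_two⟩

theorem cube_subset : Icc (0 : R4) 1 ⊆ closedBall (0 : R4) 1 := by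
  intro x hx
  rw [mem_closedBall_zero_iff, pi_norm_le_iff_of_nonneg zero_le_one]
  intro i
  have h1 := hx.1 i
  have h2 := hx.2 i
  simp only [Pi.zero_apply] at h1
  simp only [Pi.one_apply] at h2
  rw [Real.norm_eq_abs, abs_of_nonneg h1]
  exact h2

/-- GNS on the cube for smooth functions of periodic size -/
theorem gns_cube (F : Type*) [NormedAddCommGroup F] [NormedSpace ℝ F] [FiniteDimensional ℝ F] :
    ∃ C : ℝ≥0, ∀ (u : R4 → F) (g : R4 → ℝ≥0∞), ContDiff ℝ 1 u →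
      (∀ x ∈ closedBall (0 : R4) 2, ‖u x‖ₑ ^ 2 + ‖fderiv ℝ u x‖ₑ ^ 2 ≤ g x) →
      (∀ (k : Fin 4 → ℤ) x, g (tr k x) = g x) →
      eLpNorm u 4 mQ ^ 2 ≤ C * ∫⁻ x, g x ∂mQ := by
  have hcd : ContDiff ℝ 1 (fun x : R4 => cut x) := cut.contDiff
  obtain ⟨M, hM⟩ : ∃ M, ∀ x : R4, ‖fderiv ℝ (fun x : R4 => cut x) x‖ ≤ M := by
    have h1 : HasCompactSupport (fderiv ℝ fun x : R4 => cut x) := cut.hasCompactSupport.fderiv ℝ
    exact h1.exists_bound_of_continuous (hcd.continuous_fderiv one_ne_zero)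
  have hM0 : 0 ≤ M := (norm_nonneg _).trans (hM 0)
  set C₀ : ℝ≥0 := SNormLESNormFDerivOfEqConst F (volume : Measure R4) 2
  set C₁ : ℝ≥0 := Real.toNNReal (2 * (1 + M ^ 2)) with hC₁
  refine ⟨C₀ ^ 2 * (C₁ * (Kk.card : ℝ≥0)), fun u g hu hg hper => ?_⟩
  set f : R4 → F := fun x => cut x • u x with hf
  have hfc : ContDiff ℝ 1 f := hcd.smul hu
  have hfs : HasCompactSupport f := cut.hasCompactSupport.smul_right
  have hfd : ∀ x, HasFDerivAt f (cut x • fderiv ℝ u x +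
      (fderiv ℝ (fun x : R4 => cut x) x).smulRight (u x)) x := fun x =>
    ((hcd.differentiable one_ne_zero x).hasFDerivAt).smul
      ((hu.differentiable one_ne_zero x).hasFDerivAt)
  have hout : ∀ x, x ∉ closedBall (0 : R4) 2 → fderiv ℝ f x = 0 := by
    intro x hx
    have h1 : x ∉ tsupport f := by
      intro h2
      apply hx
      have h3 : tsupport f ⊆ tsupport (fun x : R4 => cut x) := by
        refine closure_mono ?_
        exact Function.support_smul_subset_left _ _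
      have h4 := h3 h2
      have h5 : tsupport (fun x : R4 => cut x) = closedBall (0 : R4) 2 := cut.tsupport_eq
      rwa [h5] at h4
    have h6 := support_fderiv_subset ℝ (f := f)
    by_contra h7
    exact h1 (h6 h7)
  have hin : ∀ x ∈ closedBall (0 : R4) 2, ‖fderiv ℝ f x‖ₑ ^ 2 ≤ C₁ * g x := by
    intro x hx
    have h1 : ‖fderiv ℝ f x‖ ≤ ‖fderiv ℝ u x‖ + M * ‖u x‖ := by
      rw [(hfd x).fderiv]
      refine (norm_add_le _ _).trans ?_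
      gcongr
      · rw [norm_smul, Real.norm_of_nonneg cut.nonneg]
        exact mul_le_of_le_one_left (norm_nonneg _) cut.le_one
      · rw [ContinuousLinearMap.norm_smulRight_apply]
        gcongr
        exact hM x
    have h2 : ‖fderiv ℝ f x‖ ^ 2 ≤ (2 * (1 + M ^ 2)) * (‖u x‖ ^ 2 + ‖fderiv ℝ u x‖ ^ 2) := by
      calc ‖fderiv ℝ f x‖ ^ 2 ≤ (‖fderiv ℝ u x‖ + M * ‖u x‖) ^ 2 := by gcongr
        _ ≤ (2 * (1 + M ^ 2)) * (‖u x‖ ^ 2 + ‖fderiv ℝ u x‖ ^ 2) := by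
            nlinarith [sq_nonneg (‖fderiv ℝ u x‖ - M * ‖u x‖), sq_nonneg (M * ‖fderiv ℝ u x‖),
              sq_nonneg ‖u x‖]
    have h3 : ‖fderiv ℝ f x‖ₑ ^ 2 ≤ C₁ * (‖u x‖ₑ ^ 2 + ‖fderiv ℝ u x‖ₑ ^ 2) := by
      have e1 : ‖fderiv ℝ f x‖ₑ ^ 2 = ENNReal.ofReal (‖fderiv ℝ f x‖ ^ 2) := by
        rw [← ofReal_norm, ENNReal.ofReal_pow (norm_nonneg _)]
      have e2 : (C₁ : ℝ≥0∞) * (‖u x‖ₑ ^ 2 + ‖fderiv ℝ u x‖ₑ ^ 2) =
          ENNReal.ofReal ((2 * (1 + M ^ 2)) * (‖u x‖ ^ 2 + ‖fderiv ℝ u x‖ ^ 2)) := by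
        rw [ENNReal.ofReal_mul (by positivity), ENNReal.ofReal_add (by positivity) (by positivity),
          ENNReal.ofReal_pow (norm_nonneg _), ENNReal.ofReal_pow (norm_nonneg _),
          ofReal_norm, ofReal_norm]
        rfl
      rw [e1, e2]
      exact ENNReal.ofReal_le_ofReal h2
    exact h3.trans (by gcongr; exact hg x hx)
  have hL2 : eLpNorm (fderiv ℝ f) 2 volume ^ 2 ≤ C₁ * (Kk.card : ℝ≥0∞) * ∫⁻ x, g x ∂mQ := by
    have h1 : eLpNorm (fderiv ℝ f) 2 volume ^ 2 = ∫⁻ x, ‖fderiv ℝ f x‖ₑ ^ 2 := by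
      have := eLpNorm_nnreal_pow_eq_lintegral (f := fderiv ℝ f) (μ := (volume : Measure R4))
        (p := 2) two_ne_zero
      simpa using this
    rw [h1]
    calc ∫⁻ x, ‖fderiv ℝ f x‖ₑ ^ 2 ≤ ∫⁻ x in closedBall (0 : R4) 2, C₁ * g x := by
          rw [← lintegral_indicator measurableSet_closedBall]
          refine lintegral_mono fun x => ?_
          by_cases hx : x ∈ closedBall (0 : R4) 2
          · rw [indicator_of_mem hx]
            exact hin x hx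
          · rw [indicator_of_notMem hx, hout x hx]
            have h0 : ‖(0 : R4 →L[ℝ] F)‖ₑ = 0 := by
              rw [← ofReal_norm, ContinuousLinearMap.opNorm_zero, ENNReal.ofReal_zero]
            rw [h0]
            simp
      _ = C₁ * ∫⁻ x in closedBall (0 : R4) 2, g x :=
          lintegral_const_mul' _ _ ENNReal.coe_ne_top
      _ ≤ C₁ * ((Kk.card : ℝ≥0∞) * ∫⁻ x, g x ∂mQ) := by
          gcongr
          exact lint_ball_le hper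
      _ = C₁ * (Kk.card : ℝ≥0∞) * ∫⁻ x, g x ∂mQ := by ring
  have hL4 : eLpNorm u 4 mQ ≤ eLpNorm f 4 volume := by
    have h1 : eLpNorm u 4 mQ = eLpNorm f 4 mQ := by
      refine eLpNorm_congr_ae ?_
      rw [EventuallyEq, ae_restrict_iff' measurableSet_Icc]
      refine Eventually.of_forall fun x hx => ?_
      have h2 : cut x = 1 := cut.one_of_mem_closedBall (cube_subset hx)
      simp only [hf]
      rw [h2, one_smul]
    rw [h1]
    exact eLpNorm_mono_measure _ Measure.restrict_le_self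
  have hG : eLpNorm f 4 volume ≤ C₀ * eLpNorm (fderiv ℝ f) 2 volume := by
    have := eLpNorm_le_eLpNorm_fderiv_of_eq (volume : Measure R4) hfc hfs (p := 2) (p' := 4)
      (by norm_num) (by simp) (by simp; norm_num)
    simpa using this
  calc eLpNorm u 4 mQ ^ 2 ≤ (C₀ * eLpNorm (fderiv ℝ f) 2 volume) ^ 2 := by
        gcongr
        exact hL4.trans hG
    _ = C₀ ^ 2 * eLpNorm (fderiv ℝ f) 2 volume ^ 2 := by rw [mul_pow]
    _ ≤ C₀ ^ 2 * (C₁ * (Kk.card : ℝ≥0∞) * ∫⁻ x, g x ∂mQ) := by gcongr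
    _ = ((C₀ ^ 2 * (C₁ * (Kk.card : ℝ≥0)) : ℝ≥0) : ℝ≥0∞) * ∫⁻ x, g x ∂mQ := by
        push_cast
        ring

/-! ## Sections -/

theorem enorm_sec {φ : R4 → ℂ} (h : Sec φ) (k : Fin 4 → ℤ) (x : R4) : ‖φ (tr k x)‖ₑ = ‖φ x‖ₑ := by
  rw [h.per, enorm_mul]
  have h1 : ‖Complex.exp (2 * Real.pi * Complex.I * k 0 * x 1)‖ = 1 := by
    rw [Complex.norm_exp]
    simp
  rw [← ofReal_norm (Complex.exp _), h1, ENNReal.ofReal_one, one_mul]

/-- an operator is bounded by the sum of its values on the basis -/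
theorem norm_le_sum_e {F : Type*} [NormedAddCommGroup F] [NormedSpace ℝ F] (L : R4 →L[ℝ] F) :
    ‖L‖ ≤ ∑ j, ‖L (e j)‖ := by
  refine L.opNorm_le_bound (Finset.sum_nonneg fun _ _ => norm_nonneg _) fun v => ?_
  have h1 : v = ∑ j, v j • e j := by
    funext i
    simp [e, Finset.sum_apply, Pi.single_apply]
  calc ‖L v‖ = ‖∑ j, v j • L (e j)‖ := by
        conv_lhs => rw [h1, map_sum]
        simp only [map_smul]
    _ ≤ ∑ j, ‖v j • L (e j)‖ := norm_sum_le _ _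
    _ ≤ ∑ j, ‖L (e j)‖ * ‖v‖ := by
        refine Finset.sum_le_sum fun j _ => ?_
        rw [norm_smul, mul_comm]
        gcongr
        exact norm_le_pi_norm v j
    _ = (∑ j, ‖L (e j)‖) * ‖v‖ := by rw [Finset.sum_mul]

theorem abs_A0c_le {M : ℝ} {ξ : ℝ × ℝ} (hξ : ‖ξ‖ ≤ M) (j : Fin 4) {x : R4}
    (hx : x ∈ closedBall (0 : R4) 2) : |A0c ξ j x| ≤ 2 * Real.pi * (M + 2) := by
  have h0 : |x 0| ≤ 2 := by
    have h1 := norm_le_pi_norm x 0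
    rw [mem_closedBall_zero_iff] at hx
    rw [Real.norm_eq_abs] at h1
    linarith
  have h1 : |ξ.1| ≤ M := by
    have := norm_fst_le ξ
    rw [Real.norm_eq_abs] at this
    linarith
  have h2 : |ξ.2| ≤ M := by
    have := norm_snd_le ξ
    rw [Real.norm_eq_abs] at this
    linarith
  have hM : 0 ≤ M := (abs_nonneg _).trans h1
  have hp := Real.pi_pos
  fin_cases j
  · simp [A0c]; positivity
  · simp only [A0c, Fin.mk_one, Matrix.cons_val_one, Matrix.cons_val_zero, abs_mul, abs_two,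
      abs_of_pos hp]
    gcongr
    linarith
  · simp only [A0c, Fin.reduceFinMk, Matrix.cons_val, abs_neg, abs_mul, abs_two, abs_of_pos hp]
    gcongr
    linarith
  · simp only [A0c, Fin.reduceFinMk, Matrix.cons_val, abs_neg, abs_mul, abs_two, abs_of_pos hp]
    gcongr
    linarith

/-- pointwise bound of the derivative by the covariant derivatives -/
theorem norm_fderiv_le {M : ℝ} {ξ : ℝ × ℝ} (hξ : ‖ξ‖ ≤ M) (φ : R4 → ℂ) {x : R4}
    (hx : x ∈ closedBall (0 : R4) 2) :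
    ‖fderiv ℝ φ x‖ ≤ (∑ j, ‖nb ξ j φ x‖) + 4 * (2 * Real.pi * (M + 2)) * ‖φ x‖ := by
  refine (norm_le_sum_e _).trans ?_
  have h1 : ∀ j, ‖fderiv ℝ φ x (e j)‖ ≤ ‖nb ξ j φ x‖ + 2 * Real.pi * (M + 2) * ‖φ x‖ := by
    intro j
    have h2 : fderiv ℝ φ x (e j) = nb ξ j φ x + Complex.I * (A0c ξ j x : ℂ) * φ x := by
      rw [nb_eq]; ring
    rw [h2]
    refine (norm_add_le _ _).trans ?_
    gcongr
    rw [norm_mul, norm_mul, Complex.norm_I, one_mul, Complex.norm_real, Real.norm_eq_abs]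
    gcongr
    exact abs_A0c_le hξ j hx
  calc ∑ j, ‖fderiv ℝ φ x (e j)‖ ≤ ∑ j, (‖nb ξ j φ x‖ + 2 * Real.pi * (M + 2) * ‖φ x‖) :=
        Finset.sum_le_sum fun j _ => h1 j
    _ = (∑ j, ‖nb ξ j φ x‖) + 4 * (2 * Real.pi * (M + 2)) * ‖φ x‖ := by
        rw [Finset.sum_add_distrib]
        simp
        ring

theorem sq_bound (a : Fin 4 → ℝ) (b c d : ℝ) (hd : 0 ≤ d)
    (h : d ≤ (∑ j, a j) + c * b) : b ^ 2 + d ^ 2 ≤ (8 + 2 * c ^ 2) * (b ^ 2 + ∑ j, a j ^ 2) := by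
  have h1 : d ^ 2 ≤ ((∑ j, a j) + c * b) ^ 2 := by gcongr
  simp only [Fin.sum_univ_four] at *
  nlinarith [sq_nonneg (a 0 - a 1), sq_nonneg (a 0 - a 2), sq_nonneg (a 0 - a 3),
    sq_nonneg (a 1 - a 2), sq_nonneg (a 1 - a 3), sq_nonneg (a 2 - a 3),
    sq_nonneg (a 0 + a 1 + a 2 + a 3 - c * b), sq_nonneg (c * a 0), sq_nonneg (c * a 1),
    sq_nonneg (c * a 2), sq_nonneg (c * a 3), sq_nonneg b]

theorem enorm_sq {E : Type*} [SeminormedAddCommGroup E] (y : E) :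
    ‖y‖ₑ ^ 2 = ENNReal.ofReal (‖y‖ ^ 2) := by
  rw [← ofReal_norm, ENNReal.ofReal_pow (norm_nonneg _)]

theorem lint_rep {v : H} {f : R4 → ℂ} (hv : Rep v f) : ∫⁻ x, ‖f x‖ₑ ^ 2 ∂mQ = ‖v‖ₑ ^ 2 := by
  have e1 : ∫⁻ x, ‖f x‖ₑ ^ 2 ∂mQ = ∫⁻ x, ‖v x‖ₑ ^ 2 ∂mQ := by
    refine lintegral_congr_ae ?_
    filter_upwards [hv] with x hx
    rw [hx]
  have e2 : eLpNorm v 2 mQ ^ 2 = ∫⁻ x, ‖v x‖ₑ ^ 2 ∂mQ := by
    have := eLpNorm_nnreal_pow_eq_lintegral (f := (v : R4 → ℂ)) (μ := mQ)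
      (p := 2) two_ne_zero
    simpa using this
  rw [e1, ← e2]
  congr 1
  rw [Lp.enorm_def]

theorem lint_sec {J : ℝ × ℝ → H →L[ℂ] H} {G : ℝ × ℝ → Fin 4 → H →L[ℂ] H} (hF : Fl J G)
    {ξ : ℝ × ℝ} {w : H} {φ : R4 → ℂ} (hφ : Sec φ) (hJ : Rep (J ξ w) φ)
    (hG : ∀ j, Rep (G ξ j w) (nb ξ j φ)) :
    ∫⁻ x, (‖φ x‖ₑ ^ 2 + ∑ j, ‖nb ξ j φ x‖ₑ ^ 2) ∂mQ = ‖w‖ₑ ^ 2 := by
  have hm : Measurable fun x => ‖φ x‖ₑ ^ 2 :=
    hφ.smooth.continuous.enorm.measurable.pow_const 2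
  have hm' : ∀ j ∈ Finset.univ, Measurable fun x => ‖nb ξ j φ x‖ₑ ^ 2 := fun j _ =>
    (hφ.nb ξ j).smooth.continuous.enorm.measurable.pow_const 2
  rw [lintegral_add_left hm, lintegral_finsetSum _ hm', lint_rep hJ]
  have h1 : ∑ j, ∫⁻ x, ‖nb ξ j φ x‖ₑ ^ 2 ∂mQ = ∑ j, ‖G ξ j w‖ₑ ^ 2 :=
    Finset.sum_congr rfl fun j _ => lint_rep (hG j)
  rw [h1]
  have h5 := hF.norm ξ w
  have h6 : ENNReal.ofReal (∑ j, ‖G ξ j w‖ ^ 2) = ∑ j, ‖G ξ j w‖ₑ ^ 2 := by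
    rw [ENNReal.ofReal_sum_of_nonneg fun j _ => sq_nonneg ‖G ξ j w‖]
    exact Finset.sum_congr rfl fun j _ => (enorm_sq _).symm
  rw [enorm_sq w, h5, ENNReal.ofReal_add (sq_nonneg _)
    (Finset.sum_nonneg fun j _ => sq_nonneg ‖G ξ j w‖), h6, ← enorm_sq]

/-- the bound for represented elements -/
theorem L4_sec {J : ℝ × ℝ → H →L[ℂ] H} {G : ℝ × ℝ → Fin 4 → H →L[ℂ] H} (hF : Fl J G) (M : ℝ) :
    ∃ C : ℝ≥0, ∀ ξ : ℝ × ℝ, ‖ξ‖ ≤ M → ∀ (w : H) (φ : R4 → ℂ), Sec φ → Rep (J ξ w) φ →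
      (∀ j, Rep (G ξ j w) (nb ξ j φ)) → eLpNorm (J ξ w) 4 mQ ≤ C * ‖w‖ₑ := by
  obtain ⟨C, hC⟩ := gns_cube ℂ
  set c : ℝ := 4 * (2 * Real.pi * (M + 2)) with hc
  set C₂ : ℝ≥0 := Real.toNNReal (8 + 2 * c ^ 2) with hC₂
  refine ⟨NNReal.sqrt (C * C₂), fun ξ hξ w φ hφ hJ hG => ?_⟩
  set g : R4 → ℝ≥0∞ := fun x => C₂ * (‖φ x‖ₑ ^ 2 + ∑ j, ‖nb ξ j φ x‖ₑ ^ 2) with hg
  have h1 : ∀ x ∈ closedBall (0 : R4) 2, ‖φ x‖ₑ ^ 2 + ‖fderiv ℝ φ x‖ₑ ^ 2 ≤ g x := by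
    intro x hx
    have h2 := sq_bound (fun j => ‖nb ξ j φ x‖) ‖φ x‖ c ‖fderiv ℝ φ x‖ (norm_nonneg _)
      (norm_fderiv_le hξ φ hx)
    have e1 : ‖φ x‖ₑ ^ 2 + ‖fderiv ℝ φ x‖ₑ ^ 2 =
        ENNReal.ofReal (‖φ x‖ ^ 2 + ‖fderiv ℝ φ x‖ ^ 2) := by
      rw [ENNReal.ofReal_add (by positivity) (by positivity), enorm_sq, enorm_sq]
    have e2 : g x = ENNReal.ofReal ((8 + 2 * c ^ 2) * (‖φ x‖ ^ 2 + ∑ j, ‖nb ξ j φ x‖ ^ 2)) := by
      have e3 : ENNReal.ofReal (∑ j, ‖nb ξ j φ x‖ ^ 2) = ∑ j, ‖nb ξ j φ x‖ₑ ^ 2 := by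
        rw [ENNReal.ofReal_sum_of_nonneg fun _ _ => by positivity]
        simp only [enorm_sq]
      rw [ENNReal.ofReal_mul (by positivity), ENNReal.ofReal_add (p := ‖φ x‖ ^ 2)
        (by positivity) (by positivity), e3, ← enorm_sq]
      rfl
    rw [e1, e2]
    exact ENNReal.ofReal_le_ofReal h2
  have h2 : ∀ (k : Fin 4 → ℤ) x, g (tr k x) = g x := by
    intro k x
    simp only [hg, enorm_sec hφ, enorm_sec (hφ.nb ξ _)]
  have h3 := hC φ g (hφ.smooth.of_le (by simp)) h1 h2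
  have h4 : ∫⁻ x, g x ∂mQ = C₂ * ‖w‖ₑ ^ 2 := by
    rw [hg, lintegral_const_mul' _ _ ENNReal.coe_ne_top, lint_sec hF hφ hJ hG]
  have h5 : eLpNorm (J ξ w) 4 mQ = eLpNorm φ 4 mQ := eLpNorm_congr_ae hJ
  rw [h4] at h3
  rw [h5]
  have h6 : ((NNReal.sqrt (C * C₂) : ℝ≥0) * ‖w‖ₑ) ^ 2 = C * (C₂ * ‖w‖ₑ ^ 2) := by
    rw [mul_pow, ← mul_assoc]
    congr 1
    rw [← ENNReal.coe_pow, NNReal.sq_sqrt, ENNReal.coe_mul]
  rw [← h6] at h3
  exact (ENNReal.pow_le_pow_left_iff two_ne_zero).1 h3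

/-- lower semicontinuity of the `L⁴` bound -/
theorem le_of_tendsto_Lp {E : Type*} [NormedAddCommGroup E] {f : ℕ → Lp E 2 mQ} {g : Lp E 2 mQ}
    (hfg : Tendsto f atTop (𝓝 g)) {c : ℕ → ℝ≥0∞} {c₀ : ℝ≥0∞} (hc : Tendsto c atTop (𝓝 c₀))
    (h : ∀ n, eLpNorm (f n) 4 mQ ≤ c n) : eLpNorm g 4 mQ ≤ c₀ := by
  obtain ⟨ns, hns, hae⟩ := (tendstoInMeasure_of_tendsto_Lp hfg).exists_seq_tendsto_ae
  have h1 := Lp.eLpNorm_lim_le_liminf_eLpNorm (p := 4) (μ := mQ)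
    (f := fun n => (f (ns n) : R4 → E)) (fun n => Lp.aestronglyMeasurable _) _ hae
  refine h1.trans ?_
  have h2 : Tendsto (fun n => c (ns n)) atTop (𝓝 c₀) := hc.comp hns.tendsto_atTop
  rw [← h2.liminf_eq]
  exact liminf_le_liminf (Eventually.of_forall fun n => h (ns n))

theorem L4_bound {J : ℝ × ℝ → H →L[ℂ] H} {G : ℝ × ℝ → Fin 4 → H →L[ℂ] H} (hF : Fl J G) (M : ℝ) :
    ∃ C : ℝ≥0, ∀ ξ : ℝ × ℝ, ‖ξ‖ ≤ M → ∀ w : H, eLpNorm (J ξ w) 4 mQ ≤ C * ‖w‖ₑ := by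
  obtain ⟨C, hC⟩ := L4_sec hF M
  refine ⟨C, fun ξ hξ w => ?_⟩
  obtain ⟨v, hv, hlim⟩ := mem_closure_iff_seq_limit.1 (hF.dense ξ w)
  refine le_of_tendsto_Lp (((J ξ).continuous.tendsto w).comp hlim)
    (c := fun n => C * ‖v n‖ₑ) ?_ fun n => ?_
  · exact ENNReal.Tendsto.const_mul ((continuous_enorm.tendsto w).comp hlim)
      (Or.inr ENNReal.coe_ne_top)
  · obtain ⟨φ, hφ, h1, h2⟩ := hv n
    exact hC ξ hξ (v n) φ hφ h1 h2

open Vale.Agent.P247.H931.S1 in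
/-- `J4` -/
theorem J4 : J4_statement := by
  intro J G hF S hS
  obtain ⟨M, hM⟩ := hS.isBounded.exists_norm_le
  obtain ⟨C, hC⟩ := L4_bound hF M
  refine ⟨C, fun ξ hξ w => (hC ξ (hM ξ hξ) w).trans ?_⟩
  rw [ENNReal.ofReal_mul C.coe_nonneg, ofReal_norm, ENNReal.ofReal_coe_nnreal]

end Vale.Agent.P247.H264
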