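import Vale.Agent.P247.H264.Kit

/-!
# MASS: the mass measure of an integral positive current
-/

open scoped ContDiff Topology
open Set MeasureTheory Filter Metric

noncomputable section

namespace Vale.Agent.P247.H264

open Vale.Agent.P247.H74 Vale.Agent.P247.H574

/-! ## Uniform constants -/

/-- every point is a lattice translate of a point of the unit cube -/
theorem exists_cube (x : R4) : ∃ n : Fin 4 → ℤ, (fun i => x i + n i : R4) ∈ Icc (0 : R4) 1 := by
  refine ⟨fun i => -⌊x i⌋, fun i => ?_, fun i => ?_⟩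
  · have := Int.floor_le (x i)
    push_cast
    simp only [Pi.zero_apply]
    linarith
  · have := (Int.lt_floor_add_one (x i)).le
    push_cast
    simp only [Pi.one_apply]
    linarith

theorem exists_norm_J_le (D : Data) : ∃ B : ℝ, 0 < B ∧ ∀ x, ‖D.J x‖ ≤ B := by
  obtain ⟨B, hB⟩ := (isCompact_Icc (a := (0 : R4)) (b := 1)).exists_bound_of_continuousOn
    D.J_smooth.continuous.continuousOn
  refine ⟨max B 1, lt_max_of_lt_right one_pos, fun x => ?_⟩
  obtain ⟨n, hn⟩ := exists_cube x
  rw [← D.J_per n x]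
  exact (hB _ hn).trans (le_max_left _ _)

theorem fderiv_lam_per (a : CForm) (n : Fin 4 → ℤ) (x : R4) :
    fderiv ℝ a.lam (fun i => x i + n i) = fderiv ℝ a.lam x := by
  have h1 : (fun x : R4 => a.lam (x + fun i => (n i : ℝ))) = a.lam := by
    funext x
    exact a.lam_per n x
  have h2 := fderiv_comp_add_right (𝕜 := ℝ) (f := a.lam) (x := x) (fun i => (n i : ℝ))
  rw [h1] at h2
  exact h2.symm

theorem val_tr (a : CForm) (n : Fin 4 → ℤ) (x u v : R4) :
    a.val (fun i => x i + n i) u v = a.val x u v := by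
  unfold CForm.val
  rw [fderiv_lam_per]

theorem cf2_apply (a : CForm) (x u v : R4) : cf2 a x u v = a.val x u v := by
  show a.κ u v + (fderiv ℝ a.lam x u v - fderiv ℝ a.lam x v u) = _
  unfold CForm.val
  ring

theorem continuous_cf2 (a : CForm) : Continuous (cf2 a) := by
  have h : Continuous (fderiv ℝ a.lam) := a.lam_smooth.continuous_fderiv (by simp)
  have h2 : Continuous fun x => ((fderiv ℝ a.lam x).flip : F2) := continuous_flip_F2.comp h
  exact continuous_add_F2 continuous_const (continuous_sub_F2 h h2)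

theorem cf2_self (a : CForm) (x u : R4) : cf2 a x u u = 0 := by
  rw [cf2_apply]
  simp [CForm.val, a.κ_self]

theorem exists_tame (D : Data) : ∃ c > 0, ∀ x u, c * ‖u‖ ^ 2 ≤ cf2 D.om x u (D.J x u) := by
  have hcont : Continuous fun q : R4 × R4 => cf2 D.om q.1 q.2 (D.J q.1 q.2) :=
    continuous_apply_F2 ((continuous_cf2 D.om).comp continuous_fst) continuous_snd
      ((D.J_smooth.continuous.comp continuous_fst).clm_apply continuous_snd)
  have hne : (Icc (0 : R4) 1 ×ˢ sphere (0 : R4) 1).Nonempty := by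
    obtain ⟨v, hv⟩ := NormedSpace.sphere_nonempty (E := R4) (x := 0) (r := 1) |>.2 zero_le_one
    exact ⟨(0, v), ⟨⟨le_rfl, zero_le_one⟩, hv⟩⟩
  obtain ⟨q, hq, hmin⟩ := (isCompact_Icc.prod (isCompact_sphere (0 : R4) 1)).exists_isMinOn hne
    hcont.continuousOn
  have hq0 : q.2 ≠ 0 := by
    intro h
    have := mem_sphere_zero_iff_norm.1 hq.2
    rw [h, norm_zero] at this
    exact zero_ne_one this
  have hpos : 0 < cf2 D.om q.1 q.2 (D.J q.1 q.2) := by
    rw [cf2_apply]
    exact D.tame q.1 q.2 hq0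
  refine ⟨_, hpos, fun x u => ?_⟩
  set c := cf2 D.om q.1 q.2 (D.J q.1 q.2) with hc
  have h1 : ∀ x v, ‖v‖ = 1 → c ≤ cf2 D.om x v (D.J x v) := by
    intro x v hv
    obtain ⟨n, hn⟩ := exists_cube x
    have h2 := hmin (show ((fun i => x i + n i, v) : R4 × R4) ∈ _ from
      ⟨hn, mem_sphere_zero_iff_norm.2 hv⟩)
    have h3 : c ≤ cf2 D.om (fun i => x i + n i) v (D.J (fun i => x i + n i) v) := h2
    rwa [D.J_per, cf2_apply, val_tr, ← cf2_apply] at h3
  rcases eq_or_ne u 0 with rfl | hu
  · simp
  · have hu' : ‖u‖ ≠ 0 := norm_ne_zero_iff.2 hu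
    have h3 := h1 x (‖u‖⁻¹ • u) (by rw [norm_smul, norm_inv, norm_norm, inv_mul_cancel₀ hu'])
    have h4 : cf2 D.om x (‖u‖⁻¹ • u) (D.J x (‖u‖⁻¹ • u)) =
        ‖u‖⁻¹ ^ 2 * cf2 D.om x u (D.J x u) := by
      rw [cf2_apply, cf2_apply]
      simp only [CForm.val, map_smul, smul_apply, smul_eq_mul]
      ring
    rw [h4] at h3
    calc c * ‖u‖ ^ 2 ≤ (‖u‖⁻¹ ^ 2 * cf2 D.om x u (D.J x u)) * ‖u‖ ^ 2 :=
          mul_le_mul_of_nonneg_right h3 (sq_nonneg _)
      _ = _ := by field_simp

/-! ## Test forms -/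

theorem CF.mul_cf2 {f : R4 → ℝ} (hf : Continuous f) (hs : HasCompactSupport f) (a : CForm) :
    CF (fun x => f x • cf2 a x) :=
  ⟨continuous_smul_F2 hf (continuous_cf2 a), hcs_of_subset hs (fun x hx => ext_F2 fun u v => by
    show f x * cf2 a x u v = 0
    rw [hx, zero_mul]), fun x u => by
    show f x * cf2 a x u u = 0
    rw [cf2_self, mul_zero]⟩

variable {D : Data} (S : ICur D)

/-- the positive functional `f ↦ T (f • om)` -/
def massFun : CompactlySupportedContinuousMap R4 ℝ →ₚ[ℝ] ℝ :=
  PositiveLinearMap.mk₀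
    { toFun := fun f => S.T (fun x => f x • cf2 D.om x)
      map_add' := fun f g => by
        have h := S.add _ _ (CF.mul_cf2 (f := f) f.continuous f.hasCompactSupport D.om)
          (CF.mul_cf2 (f := g) g.continuous g.hasCompactSupport D.om)
        refine Eq.trans ?_ h
        congr 1
        funext x
        refine ext_F2 fun u v => ?_
        show (f x + g x) * _ = f x * _ + g x * _
        ring
      map_smul' := fun c f => by
        have h := S.smul c _ (CF.mul_cf2 (f := f) f.continuous f.hasCompactSupport D.om)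
        refine Eq.trans ?_ h
        congr 1
        funext x
        refine ext_F2 fun u v => ?_
        show (c * f x) * _ = c * (f x * _)
        ring }
    (fun f hf => by
      refine S.pos _ (CF.mul_cf2 f.continuous f.hasCompactSupport D.om) (fun x u => ?_)
      have h1 : 0 ≤ f x := hf x
      show 0 ≤ f x * cf2 D.om x u (D.J x u)
      refine mul_nonneg h1 ?_
      rw [cf2_apply]
      rcases eq_or_ne u 0 with rfl | hu
      · simp [CForm.val]
      · exact (D.tame x u hu).le)

/-- the mass measure -/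
def massM : Measure R4 := RealRMK.rieszMeasure (massFun S)

instance : (massM S).Regular := by unfold massM; infer_instance

theorem isMass_massM : IsMass S (massM S) := by
  refine ⟨inferInstance, fun f hf hs => ?_⟩
  exact (RealRMK.integral_rieszMeasure (massFun S) ⟨⟨f, hf⟩, hs⟩).symm

theorem mass_bound : ∃ C, 0 < C ∧ ∀ μ : Measure R4, IsMass S μ → ∀ φ, CF φ →
    |S.T φ| ≤ C * ∫ x, ‖φ x‖ ∂μ := by
  obtain ⟨B, hB0, hB⟩ := exists_norm_J_le D
  obtain ⟨c, hc, ht⟩ := exists_tame D
  refine ⟨B / c, by positivity, fun μ hμ φ hφ => ?_⟩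
  have hn : Continuous fun x => ‖φ x‖ := CF.norm_cont hφ
  have hns : HasCompactSupport fun x => ‖φ x‖ := CF.norm_supp hφ
  have hψ : CF (fun x => ‖φ x‖ • cf2 D.om x) := CF.mul_cf2 hn hns D.om
  have hψ' := CF.smul' hψ (B / c)
  have key : ∀ s : ℝ, |s| = 1 → 0 ≤ S.T (s • φ + (B / c) • fun x => ‖φ x‖ • cf2 D.om x) := by
    intro s hs
    refine S.pos _ (CF.add' (CF.smul' hφ s) hψ') (fun x u => ?_)
    show 0 ≤ s * φ x u (D.J x u) + B / c * (‖φ x‖ * cf2 D.om x u (D.J x u))
    have h1 : |φ x u (D.J x u)| ≤ ‖φ x‖ * ‖u‖ * (B * ‖u‖) := by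
      rw [← Real.norm_eq_abs]
      refine ((φ x).le_opNorm₂ u (D.J x u)).trans ?_
      refine mul_le_mul_of_nonneg_left ?_ (by positivity)
      exact ((D.J x).le_opNorm u).trans (mul_le_mul_of_nonneg_right (hB x) (norm_nonneg _))
    have h2 : B * ‖φ x‖ * ‖u‖ ^ 2 ≤ B / c * (‖φ x‖ * cf2 D.om x u (D.J x u)) := by
      have h3 := mul_le_mul_of_nonneg_left (ht x u) (show 0 ≤ B / c * ‖φ x‖ by positivity)
      calc B * ‖φ x‖ * ‖u‖ ^ 2 = B / c * ‖φ x‖ * (c * ‖u‖ ^ 2) := by field_simp
        _ ≤ _ := h3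
        _ = _ := by ring
    have h3 : |s * φ x u (D.J x u)| ≤ B * ‖φ x‖ * ‖u‖ ^ 2 := by
      rw [abs_mul, hs, one_mul]
      refine h1.trans (le_of_eq (by ring))
    have := neg_le_of_abs_le h3
    linarith
  have h1 := key 1 (by simp)
  have h2 := key (-1) (by simp)
  rw [S.add _ _ (CF.smul' hφ _) hψ', S.smul _ _ hφ, S.smul _ _ hψ, hμ.2 _ hn hns] at h1 h2
  rw [abs_le]
  constructor <;> linarith

theorem mem_supp_iff (μ : Measure R4) (hμ : IsMass S μ) (x : R4) :
    x ∈ S.supp ↔ ∀ ε > 0, 0 < μ (ball x ε) := by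
  have := hμ.1
  constructor
  · intro hx ε hε
    obtain ⟨φ, hφ, hs, hT⟩ := hx ε hε
    obtain ⟨C, hC, hb⟩ := mass_bound S
    by_contra h0
    have h0' : μ (ball x ε) = 0 := by simpa using h0
    have h1 : ∫ y, ‖φ y‖ ∂μ = 0 := by
      have : ∀ᵐ y ∂μ, ‖φ y‖ = 0 := by
        have h2 : ∀ᵐ y ∂μ, y ∉ ball x ε := by
          rw [ae_iff]
          refine measure_mono_null (fun a ha => ?_) h0'
          exact not_not.1 ha
        filter_upwards [h2] with y hy
        rw [image_eq_zero_of_notMem_tsupport (fun h => hy (hs h))]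
        exact @norm_zero F2 _
      rw [integral_congr_ae this, integral_zero]
    have h2 := hb μ hμ φ hφ
    rw [h1, mul_zero] at h2
    exact hT (abs_nonpos_iff.1 h2)
  · intro h ε hε
    have hε4 : ε / 4 < ε / 2 := by linarith
    obtain ⟨f, hf1, hf0, hfs, hfr⟩ := exists_continuous_one_zero_of_isCompact
      (isCompact_closedBall x (ε / 4)) (isOpen_ball (x := x) (ε := ε / 2)).isClosed_compl
      (disjoint_compl_right_iff_subset.2 (closedBall_subset_ball hε4))
    refine ⟨fun y => f y • cf2 D.om y, CF.mul_cf2 f.continuous hfs D.om, ?_, ?_⟩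
    · refine (closure_mono (t := ball x (ε / 2)) (fun y hy => ?_)).trans ?_
      · by_contra h'
        refine hy (ext_F2 fun u v => ?_)
        show f y * cf2 D.om y u v = 0
        rw [hf0 h']
        simp
      · exact (closure_ball_subset_closedBall).trans (closedBall_subset_ball (by linarith))
    · rw [hμ.2 _ f.continuous hfs]
      have h1 : 0 < μ (closedBall x (ε / 4)) :=
        (h (ε / 4) (by positivity)).trans_le (measure_mono ball_subset_closedBall)
      have h2 : μ (closedBall x (ε / 4)) < ⊤ := (isCompact_closedBall _ _).measure_lt_top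
      have h3 : (μ (closedBall x (ε / 4))).toReal ≤ ∫ y, f y ∂μ := by
        have : ∫ y, (closedBall x (ε / 4)).indicator (1 : R4 → ℝ) y ∂μ ≤ ∫ y, f y ∂μ := by
          refine integral_mono_of_nonneg (Eventually.of_forall fun y => indicator_nonneg (fun _ _ => zero_le_one) _)
            (f.continuous.integrable_of_hasCompactSupport hfs) (Eventually.of_forall fun y => ?_)
          by_cases hy : y ∈ closedBall x (ε / 4)
          · simp only [hy, indicator_of_mem, Pi.one_apply]
            rw [hf1 hy]; simp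
          · simp only [hy, not_false_eq_true, indicator_of_notMem]
            exact (hfr y).1
        rwa [integral_indicator_one isClosed_closedBall.measurableSet] at this
      have h4 : 0 < (μ (closedBall x (ε / 4))).toReal := ENNReal.toReal_pos h1.ne' h2.ne
      linarith

/-- **MASS** -/
theorem MASS : MASS_statement := by
  intro D S
  obtain ⟨C, _, hC⟩ := mass_bound S
  exact ⟨massM S, isMass_massM S, ⟨C, hC _ (isMass_massM S)⟩, mem_supp_iff S _ (isMass_massM S)⟩

end Vale.Agent.P247.H264
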