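import Vale.Agent.P247.H264.Mass

/-!
# Lipschitz images of sets with a quadratic lower density bound are null in dimension three
-/

open scoped ContDiff Topology ENNReal
open Set MeasureTheory Filter Metric

noncomputable section

namespace Vale.Agent.P247.H264

open Vale.Agent.P247.H74 Vale.Agent.P247.H574

section net

variable {μ : Measure R4} [IsLocallyFiniteMeasure μ] {C : Set R4} {c ρ₀ : ℝ}

/-- separated finite sets -/
structure Sep (C : Set R4) (x : R4) (R ρ : ℝ) (s : Finset R4) : Prop where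
  mem : ∀ y ∈ s, y ∈ C ∧ y ∈ closedBall x R
  sep : ∀ y ∈ s, ∀ y' ∈ s, y ≠ y' → ρ ≤ dist y y'

omit [IsLocallyFiniteMeasure μ] in
theorem Sep.card_le (hd : ∀ y ∈ C, ∀ ρ, 0 < ρ → ρ ≤ ρ₀ → ENNReal.ofReal (c * ρ ^ 2) ≤ μ (ball y ρ))
    {x : R4} {R ρ : ℝ} (hρ : 0 < ρ) (hρ' : ρ ≤ ρ₀) (hρ1 : ρ ≤ 1) {s : Finset R4}
    (hs : Sep C x R ρ s) :
    (s.card : ℝ≥0∞) * ENNReal.ofReal (c * (ρ / 2) ^ 2) ≤ μ (closedBall x (R + 1)) := by
  have h1 : ∑ y ∈ s, μ (ball y (ρ / 2)) = μ (⋃ y ∈ s, ball y (ρ / 2)) := by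
    refine (measure_biUnion_finset (fun y hy y' hy' hne => ?_) (fun y _ => measurableSet_ball)).symm
    refine ball_disjoint_ball ?_
    have := hs.sep y hy y' hy' hne
    linarith
  have h2 : (⋃ y ∈ s, ball y (ρ / 2)) ⊆ closedBall x (R + 1) := by
    refine iUnion₂_subset (fun y hy z hz => ?_)
    have a := (hs.mem y hy).2
    rw [mem_closedBall] at a ⊢
    rw [mem_ball] at hz
    have := dist_triangle z y x
    linarith
  calc (s.card : ℝ≥0∞) * ENNReal.ofReal (c * (ρ / 2) ^ 2)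
      = ∑ _y ∈ s, ENNReal.ofReal (c * (ρ / 2) ^ 2) := by rw [Finset.sum_const, nsmul_eq_mul]
    _ ≤ ∑ y ∈ s, μ (ball y (ρ / 2)) :=
        Finset.sum_le_sum fun y hy => hd y (hs.mem y hy).1 _ (by positivity) (by linarith)
    _ = _ := h1
    _ ≤ _ := measure_mono h2

theorem exists_net (hc : 0 < c)
    (hd : ∀ y ∈ C, ∀ ρ, 0 < ρ → ρ ≤ ρ₀ → ENNReal.ofReal (c * ρ ^ 2) ≤ μ (ball y ρ))
    (x : R4) (R : ℝ) {ρ : ℝ} (hρ : 0 < ρ) (hρ' : ρ ≤ ρ₀) (hρ1 : ρ ≤ 1) :
    ∃ s : Finset R4, (∀ p ∈ C, p ∈ closedBall x R → ∃ y ∈ s, dist p y < ρ) ∧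
      (s.card : ℝ) * (c * (ρ / 2) ^ 2) ≤ (μ (closedBall x (R + 1))).toReal := by
  classical
  have hM : μ (closedBall x (R + 1)) < ⊤ := (isCompact_closedBall _ _).measure_lt_top
  have hpos : 0 < c * (ρ / 2) ^ 2 := by positivity
  have key : ∀ s : Finset R4, Sep C x R ρ s →
      (s.card : ℝ) * (c * (ρ / 2) ^ 2) ≤ (μ (closedBall x (R + 1))).toReal := by
    intro s hs
    have h := hs.card_le (μ := μ) hd hρ hρ' hρ1
    have h1 := ENNReal.toReal_mono hM.ne h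
    rwa [ENNReal.toReal_mul, ENNReal.toReal_ofReal hpos.le, ENNReal.toReal_natCast] at h1
  set A : Set ℕ := {n | ∃ s : Finset R4, Sep C x R ρ s ∧ s.card = n}
  have hne : A.Nonempty := ⟨0, ∅, ⟨by simp, by simp⟩, rfl⟩
  have hbd : BddAbove A := by
    refine ⟨⌈(μ (closedBall x (R + 1))).toReal / (c * (ρ / 2) ^ 2)⌉₊, ?_⟩
    rintro n ⟨s, hs, rfl⟩
    have h := key s hs
    have : (s.card : ℝ) ≤ (μ (closedBall x (R + 1))).toReal / (c * (ρ / 2) ^ 2) := by
      rwa [le_div_iff₀ hpos]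
    exact_mod_cast this.trans (Nat.le_ceil _)
  obtain ⟨s, hs, hcard⟩ := Nat.sSup_mem hne hbd
  refine ⟨s, fun p hp hpx => ?_, key s hs⟩
  by_contra hcon
  push Not at hcon
  have hps : p ∉ s := fun h => by
    have := hcon p h
    rw [dist_self] at this
    linarith
  have hs' : Sep C x R ρ (insert p s) := by
    refine ⟨fun y hy => ?_, fun y hy y' hy' hne' => ?_⟩
    · rcases Finset.mem_insert.1 hy with h1 | h1
      · rw [h1]; exact ⟨hp, hpx⟩
      · exact hs.mem y h1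
    · rcases Finset.mem_insert.1 hy with h1 | h1 <;> rcases Finset.mem_insert.1 hy' with h2 | h2
      · exact absurd (h1.trans h2.symm) hne'
      · rw [h1]; exact hcon y' h2
      · rw [h2, dist_comm]; exact hcon y h1
      · exact hs.sep y h1 y' h2 hne'
  have h1 : (insert p s).card ≤ sSup A := le_csSup hbd ⟨_, hs', rfl⟩
  rw [Finset.card_insert_of_notMem hps, hcard] at h1
  omega

/-- **Null image.** -/
theorem image_null (hc : 0 < c) (hρ₀ : 0 < ρ₀)
    (hd : ∀ y ∈ C, ∀ ρ, 0 < ρ → ρ ≤ ρ₀ → ENNReal.ofReal (c * ρ ^ 2) ≤ μ (ball y ρ))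
    (x : R4) (R : ℝ) {L : ℝ} (hL : 0 ≤ L) (G : Set (R4 × (ℂ × ℝ)))
    (hG : ∀ g ∈ G, g.1 ∈ C ∧ g.1 ∈ closedBall x R)
    (hLip : ∀ g ∈ G, ∀ g' ∈ G, dist g.2 g'.2 ≤ L * dist g.1 g'.1) :
    volume (Prod.snd '' G) = 0 := by
  classical
  set M := (μ (closedBall x (R + 1))).toReal
  set V := (volume : Measure (ℂ × ℝ)) (ball 0 1)
  have hH : (volume : Measure (ℂ × ℝ)).IsAddHaarMeasure :=
    Measure.prod.instIsAddHaarMeasure volume volume
  have hV : V ≠ ⊤ := measure_ball_lt_top.ne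
  have hdim : Module.finrank ℝ (ℂ × ℝ) = 3 := by
    rw [Module.finrank_prod, Complex.finrank_real_complex, Module.finrank_self]
  have key : ∀ ρ : ℝ, 0 < ρ → ρ ≤ min ρ₀ 1 →
      volume (Prod.snd '' G) ≤ ENNReal.ofReal (32 * M * L ^ 3 / c * ρ) * V := by
    intro ρ hρ hρ'
    obtain ⟨s, hs, hcard⟩ := exists_net hc hd x R hρ (hρ'.trans (min_le_left _ _))
      (hρ'.trans (min_le_right _ _))
    let q : R4 → ℂ × ℝ := fun y => if h : ∃ g ∈ G, dist g.1 y < ρ then h.choose.2 else 0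
    have hcov : Prod.snd '' G ⊆ ⋃ y ∈ s, closedBall (q y) (2 * L * ρ) := by
      rintro _ ⟨g, hg, rfl⟩
      obtain ⟨y, hy, hyd⟩ := hs g.1 (hG g hg).1 (hG g hg).2
      refine mem_iUnion₂.2 ⟨y, hy, ?_⟩
      have h : ∃ g ∈ G, dist g.1 y < ρ := ⟨g, hg, hyd⟩
      have hq : q y = h.choose.2 := dif_pos h
      rw [mem_closedBall, hq]
      refine (hLip g hg _ h.choose_spec.1).trans ?_
      have h2 := h.choose_spec.2
      have h3 := dist_triangle_right g.1 h.choose.1 y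
      calc L * dist g.1 h.choose.1 ≤ L * (2 * ρ) := mul_le_mul_of_nonneg_left (by linarith) hL
        _ = 2 * L * ρ := by ring
    have hcard' : (s.card : ℝ) * (2 * L * ρ) ^ 3 ≤ 32 * M * L ^ 3 / c * ρ := by
      have h1 : (s.card : ℝ) * ρ ^ 2 ≤ 4 * M / c := by
        rw [le_div_iff₀ hc]
        nlinarith
      calc (s.card : ℝ) * (2 * L * ρ) ^ 3 = (s.card * ρ ^ 2) * (8 * L ^ 3 * ρ) := by ring
        _ ≤ (4 * M / c) * (8 * L ^ 3 * ρ) := mul_le_mul_of_nonneg_right h1 (by positivity)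
        _ = _ := by ring
    calc volume (Prod.snd '' G) ≤ volume (⋃ y ∈ s, closedBall (q y) (2 * L * ρ)) := measure_mono hcov
      _ ≤ ∑ y ∈ s, volume (closedBall (q y) (2 * L * ρ)) := measure_biUnion_finset_le _ _
      _ = ∑ _y ∈ s, ENNReal.ofReal ((2 * L * ρ) ^ 3) * V := by
          refine Finset.sum_congr rfl fun y _ => ?_
          rw [Measure.addHaar_closedBall _ _ (by positivity), hdim]
      _ = (s.card : ℝ≥0∞) * ENNReal.ofReal ((2 * L * ρ) ^ 3) * V := by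
          rw [Finset.sum_const, nsmul_eq_mul]
          ring
      _ = ENNReal.ofReal (s.card * (2 * L * ρ) ^ 3) * V := by
          rw [ENNReal.ofReal_mul (by positivity), ENNReal.ofReal_natCast]
      _ ≤ _ := by gcongr
  have hlim : Tendsto (fun ρ : ℝ => ENNReal.ofReal (32 * M * L ^ 3 / c * ρ) * V) (𝓝[>] 0) (𝓝 0) := by
    have h1 : Tendsto (fun ρ : ℝ => 32 * M * L ^ 3 / c * ρ) (𝓝[>] 0) (𝓝 0) := by
      have : Tendsto (fun ρ : ℝ => 32 * M * L ^ 3 / c * ρ) (𝓝 0) (𝓝 (32 * M * L ^ 3 / c * 0)) :=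
        (continuous_const.mul continuous_id).tendsto 0
      rw [mul_zero] at this
      exact this.mono_left nhdsWithin_le_nhds
    have h2 := ENNReal.tendsto_ofReal h1
    rw [ENNReal.ofReal_zero] at h2
    have h3 := ENNReal.Tendsto.mul_const h2 (Or.inr hV)
    rwa [zero_mul] at h3
  refine le_antisymm (ge_of_tendsto hlim ?_) bot_le
  filter_upwards [Ioc_mem_nhdsGT (show (0 : ℝ) < min ρ₀ 1 from lt_min hρ₀ one_pos)] with ρ hρ
  exact key ρ hρ.1 hρ.2

end net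

end Vale.Agent.P247.H264
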