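import Vale.Agent.P247.H574.Sta3

/-!
# P247, stage 2, layer C: `TORX`, the assembly of layer C
-/

open scoped ContDiff Topology
open Set MeasureTheory Filter Metric

noncomputable section

namespace Vale.Agent.P247.H264

open Vale.Agent.P247.H74 Vale.Agent.P247.H574

theorem val_self (a : CForm) (x u : R4) : a.val x u u = 0 := by
  simp [CForm.val, a.κ_self]

theorem val_smul_add (a : CForm) (x u v w : R4) (s t : ℝ) :
    a.val x u (s • v + t • w) = s * a.val x u v + t * a.val x u w := by
  simp only [CForm.val, map_add, map_smul, smul_eq_mul, add_apply,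
    smul_apply]
  ring

/-- `u` and `J u` are independent -/
theorem indep (D : Data) (x u : R4) (hu : u ≠ 0) (α β : ℝ) (h : α • u + β • D.J x u = 0) :
    α = 0 ∧ β = 0 := by
  have h2 : D.J x (α • u + β • D.J x u) = 0 := by rw [h, map_zero]
  rw [map_add, map_smul, map_smul, D.J_sq] at h2
  have h3 : (α ^ 2 + β ^ 2) • u = 0 := by
    have : (α ^ 2 + β ^ 2) • u = α • (α • u + β • D.J x u) - β • (α • D.J x u + β • (-u)) := by
      module
    rw [this, h, h2]; simp
  rcases smul_eq_zero.1 h3 with h4 | h4
  · constructor <;> nlinarith [sq_nonneg α, sq_nonneg β]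
  · exact absurd h4 hu

theorem TORX : TORX_statement := by
  intro hH hC hZ D hD S hS
  obtain ⟨θ, hθ⟩ := hH D hD S hS
  obtain ⟨f, τ, hf, him, hinj⟩ := hZ D hD S θ (hC D hD S hS θ hθ)
  refine ⟨f, hf.smooth, hf.per, ?_, hinj, ?_⟩
  · intro p
    rw [injective_iff_map_eq_zero]
    intro v hv
    have h1 : fderiv ℝ (phi f) p v = v.1 • ds (phi f) p + v.2 • dt (phi f) p := by
      rw [ds, dt, ← map_smul, ← map_smul, ← map_add]
      congr 1
      ext <;> simp
    rw [h1, hf.eq p] at hv
    have h2 : (v.1 + v.2 * τ.re) • ds (phi f) p + (v.2 * τ.im) • D.J (phi f p) (ds (phi f) p) = 0 := by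
      rw [← hv]; module
    obtain ⟨h3, h4⟩ := indep D _ _ (him p) _ _ h2
    have h5 : v.2 = 0 := by
      rcases mul_eq_zero.1 h4 with h | h
      · exact h
      · exact absurd h hf.im_pos.ne'
    rw [h5] at h3
    ext
    · simpa using h3
    · exact h5
  · intro j p
    rw [hf.eq p, val_smul_add, val_self, D.η_J]
    simp [val_self]

end Vale.Agent.P247.H264
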